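import Vale.Agent.P355.H665.FBasic

/-! Arrows between mutually unbiased bases of `ℂ⁶` and their normal form. -/

namespace Vale.Agent.P355.H665

open Finset Matrix Vale.Agent.P355

theorem chi_eq_one {k : ZMod 3} (h : chi k = 1) : k = 0 := by
  have hs := sum_chi k
  by_contra hk
  rw [if_neg hk, sum_zmod3, zero_mul, one_mul, chi_zero, h, show (2 : ZMod 3) * k = k + k by ring,
    chi_add, h] at hs
  norm_num at hs

theorem chi_inj {a b : ZMod 3} (h : chi a = chi b) : a = b := by
  have : chi (a - b) = 1 := by
    rw [sub_eq_add_neg, chi_add, h, ← chi_add]; simp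
  exact sub_eq_zero.1 (chi_eq_one this)

/-- `H` is the transition matrix of two mutually unbiased bases. -/
structure Had (H : M6) : Prop where
  col : Hᴴ * H = 1
  row : H * Hᴴ = 1
  mod : ∀ x y, star (H x y) * H x y = 1 / 6

theorem normSq_star (z : ℂ) : ((Complex.normSq z : ℝ) : ℂ) = star z * z := by
  rw [Complex.normSq_eq_conj_mul_self]; rfl

theorem had_of {X Y : M6} (hX : Unitary6 X) (hY : Unitary6 Y) (hXY : Unbiased X Y) :
    Had (Xᴴ * Y) := by
  have hX' : X * Xᴴ = 1 := mul_eq_one_comm.1 hX
  have hY' : Y * Yᴴ = 1 := mul_eq_one_comm.1 hY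
  have hcol : (Xᴴ * Y)ᴴ * (Xᴴ * Y) = 1 := by
    rw [conjTranspose_mul, conjTranspose_conjTranspose, Matrix.mul_assoc, ← Matrix.mul_assoc X,
      hX', Matrix.one_mul]
    exact hY
  refine ⟨hcol, mul_eq_one_comm.1 hcol, fun x y => ?_⟩
  rw [← normSq_star, hXY x y]
  norm_num

theorem Had.conj {H : M6} (h : Had H) : Had Hᴴ := by
  refine ⟨by rw [conjTranspose_conjTranspose]; exact h.row,
    by rw [conjTranspose_conjTranspose]; exact h.col, fun x y => ?_⟩
  rw [conjTranspose_apply, star_star, mul_comm]
  exact h.mod y x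

theorem Had.ne {H : M6} (h : Had H) (x y : Fin 6) : H x y ≠ 0 := by
  intro h0
  have := h.mod x y
  rw [h0, mul_zero] at this
  norm_num at this

theorem Had.colsum {H : M6} (h : Had H) (y y' : Fin 6) :
    ∑ x, star (H x y) * H x y' = if y = y' then 1 else 0 := by
  have := congrFun (congrFun h.col y) y'
  rw [Matrix.mul_apply, Matrix.one_apply] at this
  simpa [conjTranspose_apply] using this

theorem Had.rowsum {H : M6} (h : Had H) (x x' : Fin 6) :
    ∑ y, H x y * star (H x' y) = if x = x' then 1 else 0 := by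
  have := congrFun (congrFun h.row x) x'
  rw [Matrix.mul_apply, Matrix.one_apply] at this
  simpa [conjTranspose_apply] using this

theorem Had.col_unique {H : M6} (h : Had H) {y y' : Fin 6} {c c' : ℂ} (hc : c ≠ 0)
    (hh : ∀ x, c * H x y = c' * H x y') : y = y' := by
  by_contra hne
  have h1 : c * ∑ x, star (H x y) * H x y = c' * ∑ x, star (H x y) * H x y' := by
    rw [mul_sum, mul_sum]
    refine sum_congr rfl fun x _ => ?_
    linear_combination star (H x y) * hh x
  rw [h.colsum, h.colsum, if_pos rfl, if_neg hne, mul_one, mul_zero] at h1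
  exact hc h1

/-- `diagonal (χ ∘ L)` permutes the columns of `H` up to phases. -/
def HArrow (H : M6) (L : Fin 6 → ZMod 3) : Prop :=
  (∀ k, (univ.filter fun x => L x = k).card = 2) ∧
  ∀ y, ∃ y', ∃ z : ℂ, ∀ x, chi (L x) * H x y = z * H x y'

/-- `∑ ω^{L x} |x⟩⟨x|` permutes the lines of `Y`. -/
def Arrow (X Y : M6) (L : Fin 6 → ZMod 3) : Prop := HArrow (Xᴴ * Y) L

theorem HArrow.nonconst {H : M6} {L : Fin 6 → ZMod 3} (h : HArrow H L) {k : ZMod 3} {c : ℂ}
    (hc : ∀ x, chi (k * L x) = c) : k = 0 := by
  have h0 := h.1 0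
  have h1 := h.1 1
  obtain ⟨x0, hx0⟩ := Finset.card_pos.1 (by rw [h0]; norm_num :
    0 < (univ.filter fun x => L x = 0).card)
  obtain ⟨x1, hx1⟩ := Finset.card_pos.1 (by rw [h1]; norm_num :
    0 < (univ.filter fun x => L x = 1).card)
  rw [mem_filter] at hx0 hx1
  have e0 := hc x0
  have e1 := hc x1
  rw [hx0.2, mul_zero, chi_zero] at e0
  rw [hx1.2, mul_one, ← e0] at e1
  exact chi_eq_one e1

theorem Had.unimod {H : M6} (hH : Had H) {w z : ℂ} {x y y' : Fin 6} (hw : star w * w = 1)
    (h : w * H x y = z * H x y') : star z * z = 1 := by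
  have h2 : star (w * H x y) * (w * H x y) = star (z * H x y') * (z * H x y') := by rw [h]
  rw [star_mul', star_mul'] at h2
  have e1 := hH.mod x y
  have e2 := hH.mod x y'
  have : star w * w * (star (H x y) * H x y) = star z * z * (star (H x y') * H x y') := by
    linear_combination h2
  rw [e1, e2, hw] at this
  have h6 : (6 : ℂ) ≠ 0 := by norm_num
  linear_combination (-6 : ℂ) * this

theorem HArrow.pow {H : M6} (hH : Had H) {L : Fin 6 → ZMod 3} (h : HArrow H L) (k : ZMod 3)
    (y : Fin 6) : ∃ y', ∃ z : ℂ, star z * z = 1 ∧ ∀ x, chi (k * L x) * H x y = z * H x y' := by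
  rcases zmod3_cases k with rfl | rfl | rfl
  · exact ⟨y, 1, by simp, fun x => by simp⟩
  · obtain ⟨y', z, hz⟩ := h.2 y
    exact ⟨y', z, hH.unimod (chi_star_mul _) (hz 0), fun x => by rw [one_mul]; exact hz x⟩
  · obtain ⟨y', z, hz⟩ := h.2 y
    obtain ⟨y'', z', hz'⟩ := h.2 y'
    refine ⟨y'', z * z', ?_, fun x => ?_⟩
    · have h1 := hH.unimod (chi_star_mul _) (hz 0)
      have h2 := hH.unimod (chi_star_mul _) (hz' 0)
      rw [star_mul']
      linear_combination (star z' * z') * h1 + h2
    · rw [show (2 : ZMod 3) * L x = L x + L x by ring, chi_add]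
      linear_combination chi (L x) * hz x + z * hz' x

/-- In-arrow normal form: `H = Xᴴ Y` with `X → Y` via `L`. -/
structure InD (H : M6) (L : Fin 6 → ZMod 3) (r s : ZMod 3 → Fin 6) (u v : ZMod 3 → ℂ)
    (α ρ : Fin 6 → ℂ) : Prop where
  bij : Function.Bijective (Sum.elim r s)
  fib : ∀ k, (univ.filter fun x => L x = k).card = 2
  hu : ∀ j, star (u j) * u j = 1
  hv : ∀ j, star (v j) * v j = 1
  hα : ∀ x, star (α x) * α x = 1 / 6
  hρ : ∀ x, star (ρ x) * ρ x = 1
  hr : ∀ j x, H x (r j) = u j * chi (j * L x) * α x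
  hs : ∀ j x, H x (s j) = v j * chi (j * L x) * (ρ x * α x)
  opp : ∀ x x', x ≠ x' → L x = L x' → ρ x' = -ρ x

theorem InD.sum {H : M6} {L : Fin 6 → ZMod 3} {r s : ZMod 3 → Fin 6} {u v : ZMod 3 → ℂ}
    {α ρ : Fin 6 → ℂ} (h : InD H L r s u v α ρ) (f : Fin 6 → ℂ) :
    ∑ y, f y = ∑ j, f (r j) + ∑ j, f (s j) := by
  rw [← (Equiv.ofBijective _ h.bij).sum_comp, Fintype.sum_sum_type]
  rfl

theorem HArrow.inD {H : M6} (hH : Had H) {L : Fin 6 → ZMod 3} (h : HArrow H L) :
    ∃ r s u v α ρ, InD H L r s u v α ρ := by
  choose T z hz hT using fun k y => h.pow hH k y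
  have hz0 : ∀ k y, z k y ≠ 0 := fun k y h0 => by
    have := hz k y
    rw [h0, mul_zero] at this
    exact zero_ne_one this
  have hz' : ∀ k y, z k y * star (z k y) = 1 := fun k y => by rw [mul_comm]; exact hz k y
  -- formula for columns of an orbit
  have hcol : ∀ y j x, H x (T j y) = star (z j y) * chi (j * L x) * H x y := by
    intro y j x
    linear_combination (-star (z j y)) * hT j y x - H x (T j y) * hz j y
  have hinj : ∀ y, Function.Injective (fun j => T j y) := by
    intro y j j' hjj
    have hjj' : T j y = T j' y := hjj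
    have e : ∀ x, chi ((j - j') * L x) = z j y * star (z j' y) := by
      intro x
      have e1 := hT j y x
      have e2 := hT j' y x
      rw [← hjj'] at e2
      have e3 : chi ((j - j') * L x) * chi (j' * L x) = chi (j * L x) := by
        rw [← chi_add]; congr 1; ring
      have e4 := chi_star_mul (j' * L x)
      have e5 : chi (j * L x) * star (chi (j' * L x)) = chi ((j - j') * L x) := by
        rw [← e3]; linear_combination chi ((j - j') * L x) * e4
      have hne := hH.ne x y
      have hne' := hH.ne x (T j y)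
      apply mul_right_cancel₀ hne
      rw [← e5]
      have e6 : star (chi (j' * L x)) * H x (T j y) = star (z j' y) * H x y := by
        linear_combination (-star (z j' y) * star (chi (j' * L x))) * e2
          - star (chi (j' * L x)) * H x (T j y) * hz j' y + star (z j' y) * H x y * e4
      linear_combination (star (chi (j' * L x))) * e1 + z j y * e6
    exact sub_eq_zero.1 (h.nonconst e)
  -- a point outside the orbit of `0`
  obtain ⟨y1, hy1⟩ : ∃ y1 : Fin 6, ∀ j, T j 0 ≠ y1 := by
    by_contra hcon
    push Not at hcon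
    have hsurj : Function.Surjective (fun j => T j (0 : Fin 6)) := hcon
    have := Fintype.card_le_of_surjective _ hsurj
    simp [ZMod.card] at this
  have hinjS : Function.Injective (Sum.elim (fun j => T j (0 : Fin 6)) (fun j => T j y1)) := by
    have hdis : ∀ j j', T j 0 ≠ T j' y1 := by
      intro j j' hjj
      refine hy1 (j - j') ?_
      -- column y1 is proportional to column T (j-j') 0
      refine hH.col_unique (c := z (j - j') 0 * star (z j 0)) (c' := star (z j' y1)) ?_ fun x => ?_
      · exact mul_ne_zero (hz0 _ _) (star_ne_zero.2 (hz0 _ _))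
      · have e1 := hcol 0 j x
        have e2 := hcol y1 j' x
        rw [hjj] at e1
        have e3 : chi ((j - j') * L x) * chi (j' * L x) = chi (j * L x) := by
          rw [← chi_add]; congr 1; ring
        have e4 := chi_star_mul (j' * L x)
        have e5 := hT (j - j') 0 x
        have e6 : star (z j 0) * chi (j * L x) * H x 0 = star (z j' y1) * chi (j' * L x) * H x y1 := by
          rw [← e1, e2]
        rw [← e3] at e6
        linear_combination (-star (z j 0)) * e5 + star (chi (j' * L x)) * e6
          + (star (z j' y1) * H x y1 - star (z j 0) * chi ((j - j') * L x) * H x 0) * e4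
    intro a b hab
    rcases a with a | a <;> rcases b with b | b
    · exact congrArg Sum.inl (hinj 0 hab)
    · exact absurd hab (hdis a b)
    · exact absurd hab.symm (hdis b a)
    · exact congrArg Sum.inr (hinj y1 hab)
  have hbij : Function.Bijective (Sum.elim (fun j => T j (0 : Fin 6)) (fun j => T j y1)) := by
    rw [Fintype.bijective_iff_injective_and_card]
    exact ⟨hinjS, by simp [ZMod.card]⟩
  have hsum : ∀ f : Fin 6 → ℂ, ∑ y, f y = ∑ j, f (T j 0) + ∑ j, f (T j y1) := by
    intro f
    rw [← (Equiv.ofBijective _ hbij).sum_comp, Fintype.sum_sum_type]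
    rfl
  refine ⟨fun j => T j 0, fun j => T j y1, fun j => star (z j 0), fun j => star (z j y1),
    fun x => H x 0, fun x => 6 * star (H x 0) * H x y1, hbij, h.1, fun j => by
      rw [star_star]; exact hz' j 0, fun j => by rw [star_star]; exact hz' j y1,
      fun x => hH.mod x 0, fun x => ?_, fun j x => hcol 0 j x, fun j x => ?_, ?_⟩
  · have e1 := hH.mod x 0
    have e2 := hH.mod x y1
    rw [star_mul', star_mul', star_star, show star (6 : ℂ) = 6 from Complex.conj_ofNat 6]
    linear_combination (36 * star (H x y1) * H x y1) * e1 + (6 : ℂ) * e2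
  · have e1 := hH.mod x 0
    rw [hcol y1 j x]
    linear_combination (-6 * star (z j y1) * chi (j * L x) * H x y1) * e1
  · intro x x' hne hL
    have e := hH.rowsum x x'
    rw [if_neg hne, hsum] at e
    have e1 : ∀ y j, H x (T j y) * star (H x' (T j y)) = H x y * star (H x' y) := by
      intro y j
      rw [hcol y j x, hcol y j x', star_mul', star_mul', star_star, hL]
      have := hz j y
      have := chi_star_mul (j * L x')
      linear_combination (H x y * star (H x' y) * (star (chi (j * L x')) * chi (j * L x'))) * hz j y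
        + (H x y * star (H x' y)) * this
    simp only [e1, sum_const, card_univ, ZMod.card, nsmul_eq_mul] at e
    have a1 := hH.mod x 0
    have a2 := hH.mod x' 0
    have a3 := hH.mod x y1
    have a4 := hH.mod x' y1
    have e' : H x 0 * star (H x' 0) + H x y1 * star (H x' y1) = 0 := by
      have : (3 : ℂ) ≠ 0 := by norm_num
      apply mul_left_cancel₀ this
      push_cast at e
      linear_combination e
    linear_combination
      (36 * star (H x 0) * H x' y1 ) * e' - (6 * star (H x' 0) * H x' y1 * 6) * a1
      - (36 * star (H x 0) * H x y1) * a4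

end Vale.Agent.P355.H665
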