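import Vale.Agent.P355.H665.FIO

/-! Two arrows `X → Y ← Z`: core computations. -/

namespace Vale.Agent.P355.H665

open Finset Matrix Vale.Agent.P355

theorem om_sub_ne : om - (-1 - om) ≠ 0 := by
  intro h
  have h2 : om = -1 / 2 := by linear_combination (1 / 2 : ℂ) * h
  have := om_sq
  rw [h2] at this
  norm_num at this

theorem re3 {S : ℂ} (h : ∀ n, chi n * S + star (chi n * S) = 0) : S = 0 := by
  have h0 := h 0
  have h1 := h 1
  rw [chi_zero, one_mul] at h0
  rw [chi_one, star_mul', om_star] at h1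
  have : (om - (-1 - om)) * S = 0 := by linear_combination h1 - (-1 - om) * h0
  exact (mul_eq_zero.1 this).resolve_left om_sub_ne

theorem re3' {p q : ℂ} (h : ∀ n, (chi n * p + chi n * chi n * q) +
    star (chi n * p + chi n * chi n * q) = 0) : p + star q = 0 := by
  apply re3
  intro n
  have h1 := h n
  have hc : star (chi n) = chi n * chi n := by
    rw [← chi_neg, ← chi_add]; congr 1
    rw [show -n = (-1 : ZMod 3) * n by ring, show (-1 : ZMod 3) = 2 from rfl]; ring
  have h3 := chi_three n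
  simp only [star_add, star_mul', hc, star_star] at h1 ⊢
  linear_combination h1 - (chi n * star q) * h3

/-- The mixed configuration is impossible. -/
theorem core_M {D1 D2 D3 D4 D5 D6 : ℂ} (d1 : star D1 * D1 = 1) (d2 : star D2 * D2 = 1)
    (d3 : star D3 * D3 = 1) (d4 : star D4 * D4 = 1) (d5 : star D5 * D5 = 1)
    (d6 : star D6 * D6 = 1) (ρ' : ZMod 3 → ℂ) (hρ' : ∀ l, star (ρ' l) * ρ' l = 1)
    (h : ∀ k l, ∀ s : ℂ, (s = 1 ∨ s = -1) →
      star (D3 * (s * star (ρ' l)) + (D1 * chi (k - l) + D2 * (chi (k - l) * chi (k - l)))) *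
        (D3 * (s * star (ρ' l)) + (D1 * chi (k - l) + D2 * (chi (k - l) * chi (k - l)))) +
      star (D4 + (s * star (ρ' l)) * (D5 * chi (k + l) + D6 * (chi (k + l) * chi (k + l)))) *
        (D4 + (s * star (ρ' l)) * (D5 * chi (k + l) + D6 * (chi (k + l) * chi (k + l)))) = 6) :
    False := by
  have hrho : ∀ l, ρ' l * star (ρ' l) = 1 := fun l => by rw [mul_comm]; exact hρ' l
  have hc : ∀ n, star (chi n) = chi n * chi n := fun n => by
    rw [← chi_neg, ← chi_add]; congr 1
    rw [show -n = (-1 : ZMod 3) * n by ring, show (-1 : ZMod 3) = 2 from rfl]; ring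
  have key : ∀ n m : ZMod 3, (chi n * (star D1 * D2) + star (chi n * (star D1 * D2))) +
      (chi m * (star D5 * D6) + star (chi m * (star D5 * D6))) = 0 := by
    intro n m
    have e1 := h (2 * (n + m)) (2 * (m - n)) 1 (Or.inl rfl)
    have e2 := h (2 * (n + m)) (2 * (m - n)) (-1) (Or.inr rfl)
    rw [show 2 * (n + m) - 2 * (m - n) = n by
        have : (4 : ZMod 3) = 1 := rfl
        linear_combination n * this,
      show 2 * (n + m) + 2 * (m - n) = m by
        have : (4 : ZMod 3) = 1 := rfl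
        linear_combination m * this] at e1 e2
    have r1 := hρ' (2 * (m - n))
    have n3 := chi_three n
    have m3 := chi_three m
    simp only [star_add, star_mul', star_neg, star_one, star_star, hc] at e1 e2 ⊢
    linear_combination (1 / 2 : ℂ) * e1 + (1 / 2 : ℂ) * e2
      - (star D3 * D3 + (star D5 * (chi m * chi m) + star D6 * (chi m * chi m * (chi m * chi m))) *
        (D5 * chi m + D6 * (chi m * chi m))) * r1 - d3 - d4
      - (chi n * chi n * chi n) * d1 - (chi n * chi n * chi n * (chi n * chi n * chi n)) * d2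
      - (chi m * chi m * chi m) * d5 - (chi m * chi m * chi m * (chi m * chi m * chi m)) * d6
      - (star D1 * D2 * chi n + 1 + (chi n * chi n * chi n + 1) + star D2 * D1 * (chi n * chi n)) * n3
      - (star D5 * D6 * chi m + 1 + (chi m * chi m * chi m + 1) + star D6 * D5 * (chi m * chi m)) * m3
  have hz : star D1 * D2 = 0 := by
    apply re3
    intro n
    have k0 := key n 0
    have k1 := key n 1
    have k2 := key n 2
    rw [chi_zero] at k0
    rw [chi_one] at k1
    rw [chi_two] at k2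
    have hom := om_sq
    have hos := om_star
    simp only [star_mul', hos, star_one] at k0 k1 k2 ⊢
    linear_combination (1 / 3 : ℂ) * k0 + (1 / 3 : ℂ) * k1 + (1 / 3 : ℂ) * k2
      - (1 / 3 : ℂ) * (star D5 * D6 + star (star D5) * star D6) * hom
  have : (1 : ℂ) = 0 := by
    linear_combination (D1 * star D2) * hz - (star D2 * D2) * d1 - d2
  exact one_ne_zero this

/-- The configuration with different orbits is impossible. -/
theorem core_D {D1 D2 D3 D4 D5 D6 : ℂ} (d1 : star D1 * D1 = 1) (d2 : star D2 * D2 = 1)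
    (d3 : star D3 * D3 = 1) (d4 : star D4 * D4 = 1) (d5 : star D5 * D5 = 1)
    (d6 : star D6 * D6 = 1) (ρ ρ' : ZMod 3 → ℂ) (hρ : ∀ l, star (ρ l) * ρ l = 1)
    (hρ' : ∀ l, star (ρ' l) * ρ' l = 1)
    (h : ∀ k l, ∀ s : ℂ, (s = 1 ∨ s = -1) →
      star (D3 * (s * star (ρ' l)) + (D1 * chi (k - l) + D2 * (chi (k - l) * chi (k - l)))) *
        (D3 * (s * star (ρ' l)) + (D1 * chi (k - l) + D2 * (chi (k - l) * chi (k - l)))) +
      star (D4 + (s * star (ρ' l)) * (D5 * chi (k - l) + D6 * (chi (k - l) * chi (k - l)))) *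
        (D4 + (s * star (ρ' l)) * (D5 * chi (k - l) + D6 * (chi (k - l) * chi (k - l)))) = 6 ∧
      star (D3 * (s * star (ρ' l)) + (D1 * chi (k - l) + D2 * (chi (k - l) * chi (k - l)))) *
        (ρ k * (D4 + (s * star (ρ' l)) * (D5 * chi (k - l) + D6 * (chi (k - l) * chi (k - l))))) +
      (D3 * (s * star (ρ' l)) + (D1 * chi (k - l) + D2 * (chi (k - l) * chi (k - l)))) *
        star (ρ k * (D4 + (s * star (ρ' l)) *
          (D5 * chi (k - l) + D6 * (chi (k - l) * chi (k - l))))) = 0) :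
    False := by
  have hc : ∀ n, star (chi n) = chi n * chi n := fun n => by
    rw [← chi_neg, ← chi_add]; congr 1
    rw [show -n = (-1 : ZMod 3) * n by ring, show (-1 : ZMod 3) = 2 from rfl]; ring
  -- D1 D2bar + D5 D6bar = 0
  have g0 : star D1 * D2 + star D5 * D6 = 0 := by
    apply re3
    intro n
    obtain ⟨e1, -⟩ := h n 0 1 (Or.inl rfl)
    obtain ⟨e2, -⟩ := h n 0 (-1) (Or.inr rfl)
    rw [sub_zero] at e1 e2
    have r1 := hρ' 0
    have n3 := chi_three n
    simp only [star_add, star_mul', star_neg, star_one, star_star, hc] at e1 e2 ⊢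
    linear_combination (1 / 2 : ℂ) * e1 + (1 / 2 : ℂ) * e2
      - (star D3 * D3 + (star D5 * (chi n * chi n) + star D6 * (chi n * chi n * (chi n * chi n))) *
        (D5 * chi n + D6 * (chi n * chi n))) * r1 - d3 - d4
      - (chi n * chi n * chi n) * d1 - (chi n * chi n * chi n * (chi n * chi n * chi n)) * d2
      - (chi n * chi n * chi n) * d5 - (chi n * chi n * chi n * (chi n * chi n * chi n)) * d6
      - (star D1 * D2 * chi n + 1 + (chi n * chi n * chi n + 1) + star D2 * D1 * (chi n * chi n)) * n3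
      - (star D5 * D6 * chi n + 1 + (chi n * chi n * chi n + 1) + star D6 * D5 * (chi n * chi n)) * n3
  -- eq 1
  have g1 : ∀ l, ρ' l * (D1 * star D3 + D4 * star D6) +
      star (ρ' l * (D2 * star D3 + D4 * star D5)) = 0 := by
    intro l
    apply re3'
    intro n
    obtain ⟨e1, -⟩ := h (n + l) l 1 (Or.inl rfl)
    obtain ⟨e2, -⟩ := h (n + l) l (-1) (Or.inr rfl)
    rw [add_sub_cancel_right] at e1 e2
    have n3 := chi_three n
    simp only [star_add, star_mul', star_neg, star_one, star_star, hc] at e1 e2 ⊢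
    linear_combination (1 / 2 : ℂ) * e1 - (1 / 2 : ℂ) * e2
      - (ρ' l * D4 * star D6 * chi n) * n3 + (star (ρ' l) * star D4 * D5 * chi n) * n3
  -- eq 2
  have g2 : ∀ k, ρ k * (star D3 * D5 + star D2 * D4) +
      star (ρ k * (star D3 * D6 + star D1 * D4)) = 0 := by
    intro k
    apply re3'
    intro n
    obtain ⟨-, e1⟩ := h k (k - n) 1 (Or.inl rfl)
    obtain ⟨-, e2⟩ := h k (k - n) (-1) (Or.inr rfl)
    rw [sub_sub_cancel] at e1 e2
    have n3 := chi_three n
    have r1 := hρ' (k - n)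
    simp only [star_add, star_mul', star_neg, star_one, star_star, hc] at e1 e2 ⊢
    linear_combination (1 / 2 : ℂ) * e1 + (1 / 2 : ℂ) * e2
      - (chi n * ρ k * star D3 * D5 + chi n * chi n * ρ k * star D3 * D6 +
        chi n * chi n * star (ρ k) * D3 * star D5 +
        chi n * chi n * chi n * chi n * star (ρ k) * D3 * star D6) * r1
      - (ρ k * star D2 * D4 * chi n) * n3 + (star (ρ k) * star D4 * D1 * chi n) * n3
  obtain ⟨g, hg⟩ : ∃ g : ℂ, g = D1 * star D3 * star D4 * D6 := ⟨_, rfl⟩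
  have hne : ∀ {z : ℂ}, star z * z = 1 → z ≠ 0 := by
    intro z hz h0
    rw [h0, mul_zero] at hz
    exact zero_ne_one hz
  have g0' : D5 = -(D1 * star D2 * D6) := by
    have := congrArg star g0
    simp only [star_add, star_mul', star_star, star_zero] at this
    linear_combination (D6 : ℂ) * this - D5 * d6
  have g0'' : star D5 = -(star D1 * D2 * star D6) := by
    linear_combination (star D6 : ℂ) * g0 - star D5 * d6
  have q1 : ∀ l, ρ' l * ρ' l * (D4 * star D6 * (1 + g)) = -(star D2 * D3 * (1 - g)) := by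
    intro l
    have := g1 l
    simp only [star_add, star_mul', star_star] at this
    rw [g0'] at this
    rw [hg]
    linear_combination (ρ' l) * this - (star D2 * D3 - star D4 * D1 * star D2 * D6) * hρ' l
      + (ρ' l * ρ' l * D1 * star D3) * (star D4 * D4 * d6 + d4)
      - (star D2 * D1 * star D4 * D6) * d3
  have q2 : ∀ k, ρ k * ρ k * (star D2 * D4 * (1 - g)) = -(D3 * star D6 * (1 + g)) := by
    intro k
    have := g2 k
    simp only [star_add, star_mul', star_star] at this
    rw [g0'] at this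
    rw [hg]
    linear_combination (ρ k) * this - (D3 * star D6 + D1 * star D4) * hρ k
      - (ρ k * ρ k * star D2 * D1 * star D3 * D6) * d4
      + (D1 * star D4) * (star D6 * D6 * d3 + d6)
  have hg1 : 1 + g ≠ 0 := by
    intro e
    have e1 := q1 0
    rw [e, mul_zero, mul_zero] at e1
    have e2 : 1 - g = 0 := by
      have h23 : star D2 * D3 ≠ 0 := mul_ne_zero (star_ne_zero.2 (hne d2)) (hne d3)
      apply (mul_eq_zero.1 (_ : star D2 * D3 * (1 - g) = 0)).resolve_left h23
      linear_combination e1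
    have : (2 : ℂ) = 0 := by linear_combination e + e2
    norm_num at this
  have hg2 : 1 - g ≠ 0 := by
    intro e
    have e1 := q2 0
    rw [e, mul_zero, mul_zero] at e1
    have h36 : D3 * star D6 ≠ 0 := mul_ne_zero (hne d3) (star_ne_zero.2 (hne d6))
    exact hg1 ((mul_eq_zero.1 (by linear_combination e1 : D3 * star D6 * (1 + g) = 0)).resolve_left
      h36)
  -- squares are constant
  have hsq : ∀ k, ρ k = ρ 0 ∨ ρ k = -ρ 0 := by
    intro k
    have hX : star D2 * D4 * (1 - g) ≠ 0 :=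
      mul_ne_zero (mul_ne_zero (star_ne_zero.2 (hne d2)) (hne d4)) hg2
    have : (ρ k - ρ 0) * (ρ k + ρ 0) * (star D2 * D4 * (1 - g)) = 0 := by
      linear_combination q2 k - q2 0
    rcases mul_eq_zero.1 ((mul_eq_zero.1 this).resolve_right hX) with e | e
    · left; linear_combination e
    · right; linear_combination e
  obtain ⟨W, hW⟩ : ∃ W : ℂ, W = ρ 0 * ρ' 0 * star D3 * D4 := ⟨_, rfl⟩
  have g3 : ∀ n, (W + star W) + ((chi n * (ρ 0 * star (ρ' 0) * star D1 * D6)
      + chi n * chi n * (ρ 0 * star (ρ' 0) * star D2 * D5)) +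
      star (chi n * (ρ 0 * star (ρ' 0) * star D1 * D6)
      + chi n * chi n * (ρ 0 * star (ρ' 0) * star D2 * D5))) = 0 := by
    intro n
    obtain ⟨-, e1⟩ := h n 0 1 (Or.inl rfl)
    obtain ⟨-, e2⟩ := h n 0 (-1) (Or.inr rfl)
    rw [sub_zero] at e1 e2
    have n3 := chi_three n
    have r1 := hρ' 0
    rw [hW]
    have key : ∀ R : ℂ, (star (D3 * (1 * star (ρ' 0)) + (D1 * chi n + D2 * (chi n * chi n))) *
        (R * (D4 + 1 * star (ρ' 0) * (D5 * chi n + D6 * (chi n * chi n)))) +
        (D3 * (1 * star (ρ' 0)) + (D1 * chi n + D2 * (chi n * chi n))) *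
        star (R * (D4 + 1 * star (ρ' 0) * (D5 * chi n + D6 * (chi n * chi n)))) = 0) →
        (star (D3 * (-1 * star (ρ' 0)) + (D1 * chi n + D2 * (chi n * chi n))) *
        (R * (D4 + -1 * star (ρ' 0) * (D5 * chi n + D6 * (chi n * chi n)))) +
        (D3 * (-1 * star (ρ' 0)) + (D1 * chi n + D2 * (chi n * chi n))) *
        star (R * (D4 + -1 * star (ρ' 0) * (D5 * chi n + D6 * (chi n * chi n)))) = 0) →
        (R * ρ' 0 * star D3 * D4 + star (R * ρ' 0 * star D3 * D4)) +
        ((chi n * (R * star (ρ' 0) * star D1 * D6)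
      + chi n * chi n * (R * star (ρ' 0) * star D2 * D5)) +
      star (chi n * (R * star (ρ' 0) * star D1 * D6)
      + chi n * chi n * (R * star (ρ' 0) * star D2 * D5))) = 0 := by
      intro R e1 e2
      simp only [star_add, star_mul', star_neg, star_one, star_star, hc] at e1 e2 ⊢
      rw [g0'', g0'] at e1 e2 ⊢
      linear_combination (1 / 2 : ℂ) * e1 - (1 / 2 : ℂ) * e2
        - (R * star (ρ' 0) * chi n * star D1 * D6) * n3
        + (R * star (ρ' 0) * chi n * chi n * D6 * star D2 * star D2 * D1) * n3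
        + (R * star (ρ' 0) * chi n * chi n * chi n * star D2 * D6) * (d1 - n3)
        - (ρ' 0 * star R * chi n * chi n * D1 * star D6) * n3
        + (ρ' 0 * star R * chi n * chi n * chi n * star D6 * D2) * (d1 - n3)
    rcases hsq n with e | e
    · rw [e] at e1 e2
      exact key (ρ 0) e1 e2
    · rw [e] at e1 e2
      refine key (ρ 0) ?_ ?_
      · simp only [star_mul', star_neg] at e1 ⊢
        linear_combination (-1 : ℂ) * e1
      · simp only [star_mul', star_neg] at e2 ⊢
        linear_combination (-1 : ℂ) * e2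
  have hWW : W + star W = 0 := by
    have k0 := g3 0
    have k1 := g3 1
    have k2 := g3 2
    have hom := om_sq
    have hos := om_star
    simp only [star_add, star_mul', chi_zero, chi_one, chi_two, star_one, hos, star_star]
      at k0 k1 k2
    linear_combination (1 / 3 : ℂ) * k0 + (1 / 3 : ℂ) * k1 + (1 / 3 : ℂ) * k2
      - (1 / 3 : ℂ) * (ρ 0 * star (ρ' 0) * star D1 * D6 + star (ρ 0) * ρ' 0 * D1 * star D6) * hom
      - (1 / 3 : ℂ) * (ρ 0 * star (ρ' 0) * star D2 * D5) * (1 - om + om * om) * hom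
      - (1 / 3 : ℂ) * (star (ρ 0) * ρ' 0 * D2 * star D5) * (3 + 3 * om + om * om) * hom
  have hW1 : W * W = 1 := by
    have e1 := q1 0
    have e2 := q2 0
    have hX : star D2 * star D6 * (1 - g) * (1 + g) ≠ 0 :=
      mul_ne_zero (mul_ne_zero (mul_ne_zero (star_ne_zero.2 (hne d2)) (star_ne_zero.2 (hne d6))) hg2) hg1
    have e3 : (ρ 0 * ρ 0 * (ρ' 0 * ρ' 0) * (D4 * D4) - D3 * D3) *
        (star D2 * star D6 * (1 - g) * (1 + g)) = 0 := by
      linear_combination (ρ' 0 * ρ' 0 * (D4 * star D6 * (1 + g))) * e2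
        - (D3 * star D6 * (1 + g)) * e1
    have e4 := (mul_eq_zero.1 e3).resolve_right hX
    rw [hW]
    linear_combination (star D3 * star D3) * e4 + (star D3 * D3 + 1) * d3
  have hW2 : star W * W = 1 := by
    rw [hW]
    simp only [star_mul', star_star]
    linear_combination (D3 * star D3 * D4 * star D4 * (star (ρ' 0) * ρ' 0)) * hρ 0
      + (D3 * star D3 * D4 * star D4) * hρ' 0 + (D4 * star D4) * d3 + d4
  have : (1 : ℂ) = -1 := by linear_combination W * hWW - hW1 - hW2
  norm_num at this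

/-- The circulant configuration: both squares are geometric with the same ratio. -/
theorem core_C {a b : ZMod 3 → ℂ} (ha : ∀ j, star (a j) * a j = 1)
    (hb : ∀ j, star (b j) * b j = 1) (ρ ρ' : Fin 6 → ℂ) (L L' : Fin 6 → ZMod 3)
    (hL : ∀ k, ∃ x, L x = k) (hL' : ∀ k, ∃ x, L' x = k)
    (hρ : ∀ k, star (ρ k) * ρ k = 1) (hρ' : ∀ k, star (ρ' k) * ρ' k = 1)
    (h : ∀ x w,
      star (∑ j, a j * chi ((L x - L' w) * j)) * (∑ j, a j * chi ((L x - L' w) * j)) +
      star (star (ρ' w) * ∑ j, b j * chi ((L x - L' w) * j)) *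
        (star (ρ' w) * ∑ j, b j * chi ((L x - L' w) * j)) = 6 ∧
      star (∑ j, a j * chi ((L x - L' w) * j)) *
        (ρ x * (star (ρ' w) * ∑ j, b j * chi ((L x - L' w) * j))) +
      (∑ j, a j * chi ((L x - L' w) * j)) *
        star (ρ x * (star (ρ' w) * ∑ j, b j * chi ((L x - L' w) * j))) = 0) :
    ∃ m : ZMod 3, (∀ x x', L x' = L x - 1 → ρ x' * ρ x' = ρ x * ρ x * (chi (m - 0) * chi (m - 0))) ∧
      (∀ w w', L' w' = L' w - 1 → ρ' w' * ρ' w' = ρ' w * ρ' w * (chi (m - 0) * chi (m - 0))) := by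
  obtain ⟨A, hA⟩ : ∃ A : ZMod 3 → ℂ, ∀ n, A n = ∑ j, a j * chi (n * j) := ⟨_, fun _ => rfl⟩
  obtain ⟨B, hB⟩ : ∃ B : ZMod 3 → ℂ, ∀ n, B n = ∑ j, b j * chi (n * j) := ⟨_, fun _ => rfl⟩
  simp only [← hA, ← hB] at h
  have hrs : ∀ w, ρ' w * star (ρ' w) = 1 := fun w => by rw [mul_comm]; exact hρ' w
  have h6 : ∀ k, star (A k) * A k + star (B k) * B k = 6 := by
    intro k
    obtain ⟨x, hx⟩ := hL k
    obtain ⟨w, hw⟩ := hL' 0
    have := (h x w).1
    rw [hx, hw, sub_zero, star_mul', star_star] at this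
    linear_combination this - (star (B k) * B k) * hρ' w
  have nA : ∀ n, A n ≠ 0 := by
    intro n; rw [hA]
    exact nonvanish ha (b := b) (fun k => by rw [← hA, ← hB]; exact h6 k) n
  have nB : ∀ n, B n ≠ 0 := by
    intro n; rw [hB]
    exact nonvanish hb (b := a) (fun k => by rw [← hA, ← hB, add_comm]; exact h6 k) n
  have rel : ∀ x w x1 w1, L x - L' w = L x1 - L' w1 →
      (ρ x * star (ρ' w)) * (ρ x * star (ρ' w)) = (ρ x1 * star (ρ' w1)) * (ρ x1 * star (ρ' w1)) := by
    intro x w x1 w1 hn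
    have e1 := (h x w).2
    have e2 := (h x1 w1).2
    rw [← hn] at e2
    have hAB : star (A (L x - L' w)) * B (L x - L' w) ≠ 0 :=
      mul_ne_zero (star_ne_zero.2 (nA _)) (nB _)
    generalize A (L x - L' w) = P at *
    generalize B (L x - L' w) = Q at *
    have hV := imag_sq (V := star P * (ρ x * (star (ρ' w) * Q)))
      (W := star P * (ρ x1 * (star (ρ' w1) * Q))) (by
        simp only [star_mul', star_star] at e1 ⊢
        linear_combination e1) (by
        simp only [star_mul', star_star] at e2 ⊢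
        linear_combination e2) (by
        simp only [star_mul', star_star]
        linear_combination (star P * P * star Q * Q * (star (ρ' w) * ρ' w)) * hρ x
          + (star P * P * star Q * Q) * hρ' w
          - (star P * P * star Q * Q * (star (ρ' w1) * ρ' w1)) * hρ x1
          - (star P * P * star Q * Q) * hρ' w1)
    apply mul_left_cancel₀ (mul_ne_zero hAB hAB)
    linear_combination hV
  obtain ⟨w0, hw0⟩ := hL' 0
  obtain ⟨w1, hw1⟩ := hL' (-1)
  obtain ⟨μ, hμ⟩ : ∃ μ, μ = (star (ρ' w0) * star (ρ' w0)) * (ρ' w1 * ρ' w1) := ⟨_, rfl⟩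
  have hμx : ∀ x x', L x' = L x - 1 → ρ x' * ρ x' = ρ x * ρ x * μ := by
    intro x x' hx
    have e := rel x w0 x' w1 (by rw [hx, hw0, hw1]; ring)
    have r1 := hρ' w1
    rw [hμ]
    linear_combination (-(ρ' w1 * ρ' w1)) * e - (ρ x' * ρ x' * (star (ρ' w1) * ρ' w1 + 1)) * r1
  have hμ3 : μ * μ * μ = 1 := by
    obtain ⟨x0, hx0⟩ := hL 0
    obtain ⟨x1, hx1⟩ := hL 2
    obtain ⟨x2, hx2⟩ := hL 1
    have e0 := hμx x0 x1 (by rw [hx0, hx1]; rfl)
    have e1 := hμx x1 x2 (by rw [hx1, hx2]; rfl)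
    have e2 := hμx x2 x0 (by rw [hx2, hx0]; rfl)
    have hne : ρ x0 * ρ x0 ≠ 0 := by
      have : ρ x0 ≠ 0 := fun h0 => by
        have := hρ x0; rw [h0, mul_zero] at this; exact zero_ne_one this
      exact mul_ne_zero this this
    apply mul_left_cancel₀ hne
    linear_combination (-1 : ℂ) * e2 - μ * e1 - (μ * μ) * e0
  obtain ⟨c, hc⟩ := exists_chi hμ3
  have hm : chi (2 * c - 0) * chi (2 * c - 0) = μ := by
    rw [hc, ← chi_add]; congr 1
    have : (4 : ZMod 3) = 1 := rfl
    linear_combination c * this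
  refine ⟨2 * c, ?_, ?_⟩
  · intro x x' hx
    rw [hm]
    exact hμx x x' hx
  · intro w w' hw
    rw [hm]
    obtain ⟨x, hx⟩ := hL (L' w)
    obtain ⟨x', hx'⟩ := hL (L' w - 1)
    have e1 := hμx x x' (by rw [hx, hx'])
    have e2 := rel x w x' w' (by rw [hx, hx', hw]; ring)
    have r1 := hρ x
    have r2 := hρ' w
    have r3 := hρ' w'
    linear_combination (ρ' w' * ρ' w' * (star (ρ x) * star (ρ x)) * (ρ' w * ρ' w)) * e2
      + (ρ' w' * ρ' w' * (star (ρ x) * star (ρ x)) * (ρ' w * ρ' w) *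
        (star (ρ' w') * star (ρ' w'))) * e1
      - (ρ' w' * ρ' w') * (star (ρ' w) * ρ' w * (star (ρ' w) * ρ' w)) * (star (ρ x) * ρ x + 1) * r1
      - (ρ' w' * ρ' w') * (star (ρ' w) * ρ' w + 1) * r2
      + (ρ' w * ρ' w * μ) * (star (ρ' w') * ρ' w' * (star (ρ' w') * ρ' w')) *
        (star (ρ x) * ρ x + 1) * r1
      + (ρ' w * ρ' w * μ) * (star (ρ' w') * ρ' w' + 1) * r3

end Vale.Agent.P355.H665
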