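import Vale.Agent.P355.H665.FII

/-! Two arrows `X → Y ← Z`: the antiparallel configuration. -/

namespace Vale.Agent.P355.H665

open Finset Matrix Vale.Agent.P355

/-- Quadratic Gauss sums over `ℤ/3`. -/
theorem gauss (e m : ZMod 3) (he : e ≠ 0) :
    ∑ j : ZMod 3, chi (e * j * j + m * j) = (1 + 2 * chi e) * chi (-e * m * m) := by
  rw [sum_zmod3, show e * 0 * 0 + m * 0 = 0 by ring, chi_zero, show e * 1 * 1 + m * 1 = e + m by ring,
    show e * 2 * 2 + m * 2 = e + 2 * m by
      have : (4 : ZMod 3) = 1 := rfl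
      linear_combination e * this]
  have h := om_sq
  have h3 := om_cube
  rcases zmod3_cases e with rfl | rfl | rfl
  · exact absurd rfl he
  · rcases zmod3_cases m with rfl | rfl | rfl
    · rw [show (-1 : ZMod 3) * 0 * 0 = 0 from rfl, show (1 : ZMod 3) + 0 = 1 from rfl,
        show (1 : ZMod 3) + 2 * 0 = 1 from rfl, chi_one, chi_zero]
      ring
    · rw [show (-1 : ZMod 3) * 1 * 1 = 2 from rfl, show (1 : ZMod 3) + 1 = 2 from rfl,
        show (1 : ZMod 3) + 2 * 1 = 0 from rfl, chi_one, chi_zero, chi_two]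
      linear_combination (-2 : ℂ) * h3
    · rw [show (-1 : ZMod 3) * 2 * 2 = 2 from rfl, show (1 : ZMod 3) + 2 = 0 from rfl,
        show (1 : ZMod 3) + 2 * 2 = 2 from rfl, chi_one, chi_zero, chi_two]
      linear_combination (-2 : ℂ) * h3
  · rcases zmod3_cases m with rfl | rfl | rfl
    · rw [show (-2 : ZMod 3) * 0 * 0 = 0 from rfl, show (2 : ZMod 3) + 0 = 2 from rfl,
        show (2 : ZMod 3) + 2 * 0 = 2 from rfl, chi_two, chi_zero]
      ring
    · rw [show (-2 : ZMod 3) * 1 * 1 = 1 from rfl, show (2 : ZMod 3) + 1 = 0 from rfl,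
        show (2 : ZMod 3) + 2 * 1 = 1 from rfl, chi_one, chi_zero, chi_two]
      linear_combination (-2 : ℂ) * h3
    · rw [show (-2 : ZMod 3) * 2 * 2 = 1 from rfl, show (2 : ZMod 3) + 2 = 1 from rfl,
        show (2 : ZMod 3) + 2 * 2 = 0 from rfl, chi_one, chi_zero, chi_two]
      linear_combination (-2 : ℂ) * h3

/-- A flat triple is quadratic. -/
theorem quad_form {a : ZMod 3 → ℂ} (ha : ∀ j, star (a j) * a j = 1)
    (hf : ∀ n, star (∑ j, a j * chi (n * j)) * (∑ j, a j * chi (n * j)) = 3) :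
    ∃ e f : ZMod 3, e ≠ 0 ∧ ∀ j, a j = a 0 * chi (e * j * j + f * j) := by
  have hS : star (a 0) * a 1 + star (a 1) * a 2 + star (a 2) * a 0 = 0 := by
    apply re3
    intro n
    have hc : star (chi n) = chi n * chi n := by
      rw [← chi_neg, ← chi_add]; congr 1
      rw [show -n = (-1 : ZMod 3) * n by ring, show (-1 : ZMod 3) = 2 from rfl]; ring
    have h3 := chi_three n
    have h := hf n
    rw [sum_zmod3, mul_zero, chi_zero, mul_one, mul_one, show n * 2 = n + n by ring, chi_add] at h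
    simp only [star_add, star_mul', hc, star_star] at h ⊢
    linear_combination h - ha 0 - ha 1 - ha 2
      - (star (a 1) * a 1 + star (a 2) * a 2 * (chi n * chi n * chi n + 1)
      + star (a 1) * a 2 * chi n + star (a 2) * a 1 * (chi n * chi n) + star (a 2) * a 0 * chi n) * h3
  obtain ⟨x0, hx0⟩ : ∃ x, x = star (a 0) * a 1 := ⟨_, rfl⟩
  obtain ⟨x1, hx1⟩ : ∃ x, x = star (a 1) * a 2 := ⟨_, rfl⟩
  obtain ⟨x2, hx2⟩ : ∃ x, x = star (a 2) * a 0 := ⟨_, rfl⟩
  rw [← hx0, ← hx1, ← hx2] at hS
  have u0 : star x0 * x0 = 1 := by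
    rw [hx0, star_mul', star_star]
    linear_combination (star (a 1) * a 1) * ha 0 + ha 1
  have u1 : star x1 * x1 = 1 := by
    rw [hx1, star_mul', star_star]
    linear_combination (star (a 2) * a 2) * ha 1 + ha 2
  have u2 : star x2 * x2 = 1 := by
    rw [hx2, star_mul', star_star]
    linear_combination (star (a 0) * a 0) * ha 2 + ha 0
  have hp : x0 * x1 * x2 = 1 := by
    rw [hx0, hx1, hx2]
    linear_combination (star (a 1) * a 1 * (star (a 2) * a 2)) * ha 0 + (star (a 2) * a 2) * ha 1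
      + ha 2
  have hq := three_zero u0 u1 u2 hS
  obtain ⟨n0, hn0⟩ := exists_chi (z := x0) (by
    linear_combination hp + (x0 * x0) * hS - x0 * hq)
  obtain ⟨n1, hn1⟩ := exists_chi (z := x1) (by
    linear_combination hp + (x1 * x1) * hS - x1 * hq)
  have h01 : n0 - n1 ≠ 0 := by
    intro h0
    have h0' : n0 = n1 := sub_eq_zero.1 h0
    subst h0'
    rw [hn0, hn1] at hS hp
    have h3 := chi_three n0
    have e1 : x2 = chi n0 := by
      have hne := chi_ne_zero n0
      apply mul_left_cancel₀ (mul_ne_zero hne hne)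
      linear_combination hp - h3
    rw [e1] at hS
    exact chi_ne_zero n0 (by linear_combination (1 / 3 : ℂ) * hS)
  have ea1 : a 1 = a 0 * chi n0 := by
    rw [← hn0, hx0]
    linear_combination (-a 1) * ha 0
  have ea2 : a 2 = a 0 * chi (n0 + n1) := by
    rw [chi_add, ← mul_assoc, ← ea1, ← hn1, hx1]
    linear_combination (-a 2) * ha 1
  refine ⟨n0 - n1, n1, h01, fun j => ?_⟩
  rcases zmod3_cases j with rfl | rfl | rfl
  · rw [mul_zero, mul_zero, add_zero, chi_zero, mul_one]
  · rw [ea1]; congr 2; ring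
  · rw [ea2]; congr 2
    have : (3 : ZMod 3) = 0 := rfl
    linear_combination (n1 - n0) * this

/-- The antiparallel configuration: explicit quadratic phases. -/
theorem core_A {a b : ZMod 3 → ℂ} (ha : ∀ j, star (a j) * a j = 1)
    (hb : ∀ j, star (b j) * b j = 1) (ρ ρ' : Fin 6 → ℂ) (L L' : Fin 6 → ZMod 3)
    (hL : ∀ k, ∃ x, L x = k) (hL' : ∀ k, ∃ x, L' x = k)
    (hρ : ∀ k, star (ρ k) * ρ k = 1) (hρ' : ∀ k, star (ρ' k) * ρ' k = 1)
    (A B : ZMod 3 → ℂ) (hA : ∀ n, A n = ∑ j, a j * chi (n * j))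
    (hB : ∀ n, B n = ∑ j, b j * chi (n * j))
    (h : ∀ x w, star (A (L x - L' w)) * A (L x - L' w) +
      star (star (ρ' w) * B (L x + L' w)) * (star (ρ' w) * B (L x + L' w)) = 6 ∧
      star (A (L x - L' w)) * (ρ x * (star (ρ' w) * B (L x + L' w))) +
      A (L x - L' w) * star (ρ x * (star (ρ' w) * B (L x + L' w))) = 0) :
    ∃ e f f' : ZMod 3, ∀ l,
      (∀ k, chi k * A (k - l) = chi (2 * f - l - (l - e)) * A (k - (l - e))) ∧
      (∀ k, chi k * B (k + l) = chi (2 * f' + l + (l - e)) * B (k + (l - e))) ∧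
      (∀ w w', L' w = l → L' w' = l - e → ρ' w' * ρ' w' =
        (ρ' w * (chi (2 * f - l - (l - e)) * star (chi (2 * f' + l + (l - e))))) *
        (ρ' w * (chi (2 * f - l - (l - e)) * star (chi (2 * f' + l + (l - e)))))) := by
  have h30 : (3 : ZMod 3) = 0 := rfl
  have h41 : (4 : ZMod 3) = 1 := rfl
  have hconj : ∀ n, star (chi n) = chi n * chi n := fun n => by
    rw [← chi_neg, ← chi_add]; congr 1
    rw [show -n = (-1 : ZMod 3) * n by ring, show (-1 : ZMod 3) = 2 from rfl]; ring
  have h6 : ∀ n m, star (A n) * A n + star (B m) * B m = 6 := by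
    intro n m
    obtain ⟨x, hx⟩ := hL (2 * (n + m))
    obtain ⟨w, hw⟩ := hL' (2 * (m - n))
    have := (h x w).1
    rw [hx, hw, show 2 * (n + m) - 2 * (m - n) = n by linear_combination n * h41,
      show 2 * (n + m) + 2 * (m - n) = m by linear_combination m * h41, star_mul',
      star_star] at this
    linear_combination this - (star (B m) * B m) * hρ' w
  have hexp : ∀ n, star (A n) * A n = 3 + (chi n * (star (a 0) * a 1 + star (a 1) * a 2 +
      star (a 2) * a 0) + star (chi n * (star (a 0) * a 1 + star (a 1) * a 2 +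
      star (a 2) * a 0))) := by
    intro n
    have h3 := chi_three n
    rw [hA, sum_zmod3, mul_zero, chi_zero, mul_one, mul_one, show n * 2 = n + n by ring, chi_add]
    simp only [star_add, star_mul', hconj, star_star]
    linear_combination ha 0 + ha 1 + ha 2
      + (star (a 1) * a 1 + star (a 2) * a 2 * (chi n * chi n * chi n + 1)
      + star (a 1) * a 2 * chi n + star (a 2) * a 1 * (chi n * chi n) + star (a 2) * a 0 * chi n) * h3
  have fA : ∀ n, star (A n) * A n = 3 := by
    have c0 : ∀ n, star (A n) * A n = star (A 0) * A 0 := fun n => by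
      linear_combination h6 n 0 - h6 0 0
    have e0 := hexp 0
    have e1 := hexp 1
    have e2 := hexp 2
    have c1 := c0 1
    have c2 := c0 2
    have hom := om_sq
    have hos := om_star
    intro n
    rw [c0 n]
    rw [chi_zero] at e0
    rw [chi_one] at e1
    rw [chi_two] at e2
    simp only [star_mul', hos, star_one] at e0 e1 e2
    linear_combination (1 / 3 : ℂ) * e0 + (1 / 3 : ℂ) * e1 + (1 / 3 : ℂ) * e2 - (1 / 3 : ℂ) * c1
      - (1 / 3 : ℂ) * c2 + (1 / 3 : ℂ) * ((star (a 0) * a 1 + star (a 1) * a 2 +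
      star (a 2) * a 0) + star (star (a 0) * a 1 + star (a 1) * a 2 + star (a 2) * a 0)) * hom
  have fB : ∀ n, star (B n) * B n = 3 := fun n => by linear_combination h6 0 n - fA 0
  obtain ⟨e, f, he, haf⟩ := quad_form ha (fun n => by rw [← hA]; exact fA n)
  obtain ⟨e', f', he', hbf⟩ := quad_form hb (fun n => by rw [← hB]; exact fB n)
  have hAn : ∀ n, A n = a 0 * (1 + 2 * chi e) * chi (-e * (f + n) * (f + n)) := by
    intro n
    rw [hA, mul_assoc, ← gauss e (f + n) he, mul_sum]
    refine sum_congr rfl fun j _ => ?_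
    rw [haf j, mul_assoc, ← chi_add]; congr 2; ring
  have hBn : ∀ n, B n = b 0 * (1 + 2 * chi e') * chi (-e' * (f' + n) * (f' + n)) := by
    intro n
    rw [hB, mul_assoc, ← gauss e' (f' + n) he', mul_sum]
    refine sum_congr rfl fun j _ => ?_
    rw [hbf j, mul_assoc, ← chi_add]; congr 2; ring
  obtain ⟨K1, hK1⟩ : ∃ K, K = a 0 * (1 + 2 * chi e) := ⟨_, rfl⟩
  obtain ⟨K2, hK2⟩ : ∃ K, K = b 0 * (1 + 2 * chi e') := ⟨_, rfl⟩
  rw [← hK1] at hAn
  rw [← hK2] at hBn
  have nK1 : K1 ≠ 0 := by
    intro h0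
    have := fA 0
    rw [hAn, h0] at this
    simp at this
  have nK2 : K2 ≠ 0 := by
    intro h0
    have := fB 0
    rw [hBn, h0] at this
    simp at this
  obtain ⟨E, hE⟩ : ∃ E : ZMod 3 → ZMod 3 → ZMod 3, ∀ k l, E k l =
      e * (f + (k - l)) * (f + (k - l)) - e' * (f' + (k + l)) * (f' + (k + l)) := ⟨_, fun _ _ => rfl⟩
  have hAB : ∀ k l, star (A (k - l)) * B (k + l) = star K1 * K2 * chi (E k l) := by
    intro k l
    rw [hAn, hBn, star_mul', ← chi_neg, hE]
    have : chi (e * (f + (k - l)) * (f + (k - l)) - e' * (f' + (k + l)) * (f' + (k + l))) =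
        chi (-(-e * (f + (k - l)) * (f + (k - l)))) * chi (-e' * (f' + (k + l)) * (f' + (k + l))) := by
      rw [← chi_add]; congr 1; ring
    rw [this]; ring
  have rel : ∀ x w x1 w1,
      (chi (E (L x) (L' w)) * (ρ x * star (ρ' w))) * (chi (E (L x) (L' w)) * (ρ x * star (ρ' w))) =
      (chi (E (L x1) (L' w1)) * (ρ x1 * star (ρ' w1))) *
        (chi (E (L x1) (L' w1)) * (ρ x1 * star (ρ' w1))) := by
    intro x w x1 w1
    have e1 := (h x w).2
    have e2 := (h x1 w1).2
    have p1 := fA (L x - L' w)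
    have p2 := fB (L x + L' w)
    have p3 := fA (L x1 - L' w1)
    have p4 := fB (L x1 + L' w1)
    have q1 := hAB (L x) (L' w)
    have q2 := hAB (L x1) (L' w1)
    generalize A (L x - L' w) = P at *
    generalize B (L x + L' w) = Q at *
    generalize A (L x1 - L' w1) = P1 at *
    generalize B (L x1 + L' w1) = Q1 at *
    have hV := imag_sq (V := star P * (ρ x * (star (ρ' w) * Q)))
      (W := star P1 * (ρ x1 * (star (ρ' w1) * Q1))) (by
        simp only [star_mul', star_star] at e1 ⊢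
        linear_combination e1) (by
        simp only [star_mul', star_star] at e2 ⊢
        linear_combination e2) (by
        simp only [star_mul', star_star]
        linear_combination (star P * P * star Q * Q * (star (ρ' w) * ρ' w)) * hρ x
          + (star P * P * star Q * Q) * hρ' w + (star Q * Q) * p1 + (3 : ℂ) * p2
          - (star P1 * P1 * star Q1 * Q1 * (star (ρ' w1) * ρ' w1)) * hρ x1
          - (star P1 * P1 * star Q1 * Q1) * hρ' w1 - (star Q1 * Q1) * p3 - (3 : ℂ) * p4)
    have hK : star K1 * K2 ≠ 0 := mul_ne_zero (star_ne_zero.2 nK1) nK2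
    apply mul_left_cancel₀ (mul_ne_zero hK hK)
    have r1 : star P * (ρ x * (star (ρ' w) * Q)) =
        (star K1 * K2) * (chi (E (L x) (L' w)) * (ρ x * star (ρ' w))) := by
      linear_combination (ρ x * star (ρ' w)) * q1
    have r2 : star P1 * (ρ x1 * (star (ρ' w1) * Q1)) =
        (star K1 * K2) * (chi (E (L x1) (L' w1)) * (ρ x1 * star (ρ' w1))) := by
      linear_combination (ρ x1 * star (ρ' w1)) * q2
    rw [r1, r2] at hV
    linear_combination hV
  have hne' : ∀ {z : ℂ}, star z * z = 1 → z ≠ 0 := by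
    intro z hz h0
    rw [h0, mul_zero] at hz
    exact zero_ne_one hz
  have hee : e' = -e := by
    obtain ⟨x0, hx0⟩ := hL 0
    obtain ⟨x1, hx1⟩ := hL 1
    obtain ⟨w0, hw0⟩ := hL' 0
    obtain ⟨w1, hw1⟩ := hL' 1
    have r1 := rel x0 w0 x0 w1
    have r2 := rel x1 w1 x1 w0
    rw [hx0, hw0, hw1] at r1
    rw [hx1, hw0, hw1] at r2
    have hN : (ρ x0 * ρ x0 * (ρ x1 * ρ x1)) * (star (ρ' w0) * star (ρ' w0) *
        (star (ρ' w1) * star (ρ' w1))) ≠ 0 := by
      have n1 := hne' (hρ x0)
      have n2 := hne' (hρ x1)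
      have n3 := star_ne_zero.2 (hne' (hρ' w0))
      have n4 := star_ne_zero.2 (hne' (hρ' w1))
      exact mul_ne_zero (mul_ne_zero (mul_ne_zero n1 n1) (mul_ne_zero n2 n2))
        (mul_ne_zero (mul_ne_zero n3 n3) (mul_ne_zero n4 n4))
    have hprod : chi (2 * E 0 0 + 2 * E 1 1) = chi (2 * E 0 1 + 2 * E 1 0) := by
      apply mul_left_cancel₀ hN
      rw [show 2 * E 0 0 + 2 * E 1 1 = (E 0 0 + E 0 0) + (E 1 1 + E 1 1) by ring,
        show 2 * E 0 1 + 2 * E 1 0 = (E 0 1 + E 0 1) + (E 1 0 + E 1 0) by ring]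
      simp only [chi_add]
      linear_combination (chi (E 1 1) * (ρ x1 * star (ρ' w1)) *
        (chi (E 1 1) * (ρ x1 * star (ρ' w1)))) * r1 +
        (chi (E 0 1) * (ρ x0 * star (ρ' w1)) * (chi (E 0 1) * (ρ x0 * star (ρ' w1)))) * r2
    have h0 := chi_inj hprod
    rw [hE, hE, hE, hE] at h0
    linear_combination (-1 : ZMod 3) * h0 - (e + e') * h30 * 1
  have he2 : e * e = 1 := sq_one he
  refine ⟨e, f, f', fun l => ⟨fun k => ?_, fun k => ?_, fun w w' hw hw' => ?_⟩⟩
  · rw [hAn, hAn]
    have : chi k * chi (-e * (f + (k - l)) * (f + (k - l))) =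
        chi (2 * f - l - (l - e)) * chi (-e * (f + (k - (l - e))) * (f + (k - (l - e)))) := by
      rw [← chi_add, ← chi_add]; congr 1
      linear_combination (2 * (f + k - l) + e) * he2 + k * h30
    linear_combination K1 * this
  · rw [hBn, hBn, hee]
    have : chi k * chi (- -e * (f' + (k + l)) * (f' + (k + l))) =
        chi (2 * f' + l + (l - e)) * chi (- -e * (f' + (k + (l - e))) * (f' + (k + (l - e)))) := by
      rw [← chi_add, ← chi_add]; congr 1
      linear_combination (2 * (f' + k + l) - e) * he2 + k * h30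
    linear_combination K2 * this
  · obtain ⟨x, hx⟩ := hL 0
    have r := rel x w x w'
    rw [hx, hw, hw'] at r
    have n1 := hρ x
    have n2 := hρ' w
    have n3 := hρ' w'
    have hEE : chi (E 0 (l - e)) = chi (E 0 l) *
        (chi (2 * f - l - (l - e)) * star (chi (2 * f' + l + (l - e)))) := by
      rw [← chi_neg, ← chi_add, ← chi_add, hE, hE, hee]; congr 1
      linear_combination (2 * (f - f' - 2 * l) + 2 * e) * he2
    rw [hEE] at r
    have c1 := chi_star_mul (E 0 l)
    have c2 := chi_star_mul (2 * f' + l + (l - e))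
    have c3 := chi_star_mul (2 * f - l - (l - e))
    generalize chi (E 0 l) = t at *
    generalize chi (2 * f' + l + (l - e)) = y at *
    generalize chi (2 * f - l - (l - e)) = z at *
    -- r : (t * (ρ x * star ρ' w))^2 = (t * (z * star y) * (ρ x * star ρ' w'))^2
    have r' : (ρ x * ρ x) * (star (ρ' w) * star (ρ' w)) =
        (ρ x * ρ x) * ((z * star y) * (z * star y) * (star (ρ' w') * star (ρ' w'))) := by
      have nt : t * t ≠ 0 := mul_ne_zero (hne' c1) (hne' c1)
      apply mul_left_cancel₀ nt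
      linear_combination r
    have r'' : star (ρ' w) * star (ρ' w) = (z * star y) * (z * star y) *
        (star (ρ' w') * star (ρ' w')) :=
      mul_left_cancel₀ (mul_ne_zero (hne' n1) (hne' n1)) r'
    linear_combination (ρ' w' * ρ' w' * (ρ' w * ρ' w)) * r'' -
      (ρ' w' * ρ' w' * (star (ρ' w) * ρ' w + 1)) * n2 +
      (ρ' w * ρ' w * (z * star y) * (z * star y) * (star (ρ' w') * ρ' w' + 1)) * n3

end Vale.Agent.P355.H665
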