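import Vale.Agent.P355.H665.FIIA

/-! Two arrows `X → Y ← Z`: configurations of orbits and the final lemma. -/

namespace Vale.Agent.P355.H665

open Finset Matrix Vale.Agent.P355

section
variable {H G : M6} {L L' : Fin 6 → ZMod 3} {r s r' s' : ZMod 3 → Fin 6} {u v u' v' : ZMod 3 → ℂ}
  {α ρ α' ρ' : Fin 6 → ℂ}

theorem InD.shift (D : InD H L r s u v α ρ) (c d : ZMod 3) :
    InD H L (fun j => r (j + c)) (fun j => s (j + d)) (fun j => u (j + c)) (fun j => v (j + d))
      (fun x => chi (c * L x) * α x) (fun x => chi ((d - c) * L x) * ρ x) := by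
  refine ⟨?_, D.fib, fun j => D.hu _, fun j => D.hv _, fun x => ?_, fun x => ?_, fun j x => ?_,
    fun j x => ?_, fun x x' hne hL => ?_⟩
  · have : Sum.elim (fun j => r (j + c)) (fun j => s (j + d)) =
        Sum.elim r s ∘ Sum.map (Equiv.addRight c) (Equiv.addRight d) := by
      ext i
      rcases i with j | j <;> rfl
    rw [this]
    exact D.bij.comp (Function.Bijective.sumMap (Equiv.addRight c).bijective
      (Equiv.addRight d).bijective)
  · rw [star_mul']
    linear_combination (star (α x) * α x) * chi_star_mul (c * L x) + D.hα x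
  · rw [star_mul']
    linear_combination (star (ρ x) * ρ x) * chi_star_mul ((d - c) * L x) + D.hρ x
  · rw [D.hr]
    have : chi ((j + c) * L x) = chi (j * L x) * chi (c * L x) := by
      rw [← chi_add]; congr 1; ring
    rw [this]; ring
  · rw [D.hs]
    have : chi ((j + d) * L x) = chi (j * L x) * (chi ((d - c) * L x) * chi (c * L x)) := by
      rw [← chi_add, ← chi_add]; congr 1; ring
    rw [this]; ring
  · rw [D.opp x x' hne hL, hL]; ring

theorem InD.swap (D : InD H L r s u v α ρ) :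
    InD H L s r v u (fun x => ρ x * α x) (fun x => star (ρ x)) := by
  refine ⟨?_, D.fib, fun j => D.hv _, fun j => D.hu _, fun x => ?_, fun x => ?_, fun j x => D.hs j x,
    fun j x => ?_, fun x x' hne hL => ?_⟩
  · have : Sum.elim s r = Sum.elim r s ∘ Sum.swap := by
      ext i
      rcases i with j | j <;> rfl
    rw [this]
    exact D.bij.comp (Equiv.sumComm _ _).bijective
  · rw [star_mul']
    linear_combination (star (α x) * α x) * D.hρ x + D.hα x
  · rw [star_star]
    linear_combination D.hρ x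
  · rw [D.hr]
    linear_combination (-u j * chi (j * L x) * α x) * D.hρ x
  · rw [D.opp x x' hne hL, star_neg]

theorem InD.neg (D : InD H L r s u v α ρ) :
    InD H (fun x => -L x) (fun j => r (-j)) (fun j => s (-j)) (fun j => u (-j)) (fun j => v (-j))
      α ρ := by
  refine ⟨?_, fun k => ?_, fun j => D.hu _, fun j => D.hv _, D.hα, D.hρ, fun j x => ?_,
    fun j x => ?_, fun x x' hne hL => D.opp x x' hne (neg_injective hL)⟩
  · have : Sum.elim (fun j => r (-j)) (fun j => s (-j)) =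
        Sum.elim r s ∘ Sum.map (Equiv.neg _) (Equiv.neg _) := by
      ext i
      rcases i with j | j <;> rfl
    rw [this]
    exact D.bij.comp (Function.Bijective.sumMap (Equiv.neg _).bijective (Equiv.neg _).bijective)
  · rw [← D.fib (-k)]
    congr 1
    ext x
    simp only [mem_filter, mem_univ, true_and]
    exact neg_eq_iff_eq_neg
  · rw [D.hr, show -j * L x = j * -L x by ring]
  · rw [D.hs, show -j * L x = j * -L x by ring]

/-- Expansion of `H Gᴴ` (scaled). -/
theorem InD.hsum (D : InD H L r s u v α ρ) (z : Fin 6 → ℂ) (x : Fin 6) :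
    ∑ y, H x y * z y = α x * ((∑ j, u j * z (r j) * chi (j * L x)) +
      ρ x * (∑ j, v j * z (s j) * chi (j * L x))) := by
  rw [D.sum, mul_add]
  congr 1
  · rw [mul_sum]
    refine sum_congr rfl fun j _ => ?_
    rw [D.hr]; ring
  · rw [mul_sum, mul_sum]
    refine sum_congr rfl fun j _ => ?_
    rw [D.hs]; ring

theorem hz_one (D' : InD G L' r' s' u' v' α' ρ') (hHG : Had (H * Gᴴ)) (w x : Fin 6) :
    star (∑ y, H x y * (star (G w y) * (6 * α' w))) *
      (∑ y, H x y * (star (G w y) * (6 * α' w))) = 1 := by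
  have e : ∑ y, H x y * (star (G w y) * (6 * α' w)) = 6 * α' w * (H * Gᴴ) x w := by
    rw [Matrix.mul_apply, mul_sum]
    refine sum_congr rfl fun y _ => ?_
    rw [conjTranspose_apply]; ring
  rw [e, star_mul', star_mul', show star (6 : ℂ) = 6 from Complex.conj_ofNat 6]
  linear_combination (36 * star ((H * Gᴴ) x w) * (H * Gᴴ) x w) * D'.hα w + (6 : ℂ) * hHG.mod x w

theorem zr (D' : InD G L' r' s' u' v' α' ρ') (w : Fin 6) (j : ZMod 3) :
    star (G w (r' j)) * (6 * α' w) = star (u' j) * star (chi (j * L' w)) := by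
  rw [D'.hr, star_mul', star_mul']
  linear_combination (6 * star (u' j) * star (chi (j * L' w))) * D'.hα w

theorem zs (D' : InD G L' r' s' u' v' α' ρ') (w : Fin 6) (j : ZMod 3) :
    star (G w (s' j)) * (6 * α' w) = star (ρ' w) * (star (v' j) * star (chi (j * L' w))) := by
  rw [D'.hs, star_mul', star_mul', star_mul']
  linear_combination (6 * star (ρ' w) * star (v' j) * star (chi (j * L' w))) * D'.hα w

/-- A label on `Y` increasing along both orbits. -/
theorem exists_label (hb : Function.Bijective (Sum.elim r s)) (p q : ZMod 3) :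
    ∃ K : Fin 6 → ZMod 3, (∀ k, (univ.filter fun y => K y = k).card = 2) ∧
      (∀ j, K (r j) = p + 1 * j) ∧ (∀ j, K (s j) = q + 1 * j) := by
  obtain ⟨e, he⟩ : ∃ e : (ZMod 3 ⊕ ZMod 3) ≃ Fin 6, ∀ i, e i = Sum.elim r s i :=
    ⟨Equiv.ofBijective _ hb, fun _ => rfl⟩
  have hr : ∀ j, e.symm (r j) = Sum.inl j := fun j => by
    rw [Equiv.symm_apply_eq, he]; rfl
  have hs : ∀ j, e.symm (s j) = Sum.inr j := fun j => by
    rw [Equiv.symm_apply_eq, he]; rfl
  refine ⟨fun y => Sum.elim (fun j => p + 1 * j) (fun j => q + 1 * j) (e.symm y), fun k => ?_,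
    fun j => by beta_reduce; rw [hr]; rfl, fun j => by beta_reduce; rw [hs]; rfl⟩
  have hset : (univ.filter fun y => Sum.elim (fun j => p + 1 * j) (fun j => q + 1 * j) (e.symm y) = k)
      = {r (k - p), s (k - q)} := by
    ext y
    simp only [mem_filter, mem_univ, true_and, mem_insert, mem_singleton]
    obtain ⟨i, rfl⟩ := e.surjective y
    rw [e.symm_apply_apply]
    rcases i with j | j
    · rw [he]
      simp only [Sum.elim_inl]
      constructor
      · intro h
        left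
        rw [← h]; congr 1; ring
      · rintro (h | h)
        · have : j = k - p := by
            have := hb.1 (a₁ := Sum.inl j) (a₂ := Sum.inl (k - p)) h
            exact Sum.inl_injective this
          rw [this]; ring
        · have := hb.1 (a₁ := Sum.inl j) (a₂ := Sum.inr (k - q)) h
          exact absurd this (by simp)
    · rw [he]
      simp only [Sum.elim_inr]
      constructor
      · intro h
        right
        rw [← h]; congr 1; ring
      · rintro (h | h)
        · have := hb.1 (a₁ := Sum.inr j) (a₂ := Sum.inl (k - p)) h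
          exact absurd this (by simp)
        · have : j = k - q := by
            have := hb.1 (a₁ := Sum.inr j) (a₂ := Sum.inr (k - q)) h
            exact Sum.inr_injective this
          rw [this]; ring
  rw [hset, card_pair]
  intro h
  have := hb.1 (a₁ := Sum.inl (k - p)) (a₂ := Sum.inr (k - q)) h
  exact absurd this (by simp)

theorem ii_C (D : InD H L r s u v α ρ) (D' : InD G L' r s u' v' α' ρ') (hHG : Had (H * Gᴴ)) :
    ∃ K, HArrow Hᴴ K ∧ HArrow Gᴴ K := by
  obtain ⟨m, h1, h2⟩ := core_C (a := fun j => u j * star (u' j)) (b := fun j => v j * star (v' j))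
    (fun j => by
      rw [star_mul', star_star]
      linear_combination (star (u' j) * u' j) * D.hu j + D'.hu j)
    (fun j => by
      rw [star_mul', star_star]
      linear_combination (star (v' j) * v' j) * D.hv j + D'.hv j)
    ρ ρ' L L' D.exists_class D'.exists_class D.hρ D'.hρ (fun x w => by
      have := D.pq _ 1 (hz_one D' hHG w) x
      have ea : ∑ j, u j * (star (G w (r j)) * (6 * α' w)) * chi (j * L x) =
          ∑ j, u j * star (u' j) * chi ((L x - L' w) * j) := by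
        refine sum_congr rfl fun j _ => ?_
        rw [zr D', ← chi_neg]
        have : chi ((L x - L' w) * j) = chi (-(j * L' w)) * chi (j * L x) := by
          rw [← chi_add]; congr 1; ring
        rw [this]; ring
      have eb : ∑ j, v j * (star (G w (s j)) * (6 * α' w)) * chi (j * L x) =
          star (ρ' w) * ∑ j, v j * star (v' j) * chi ((L x - L' w) * j) := by
        rw [mul_sum]
        refine sum_congr rfl fun j _ => ?_
        rw [zs D', ← chi_neg]
        have : chi ((L x - L' w) * j) = chi (-(j * L' w)) * chi (j * L x) := by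
          rw [← chi_add]; congr 1; ring
        rw [this]; ring
      rw [ea, eb, mul_one] at this
      exact this)
  obtain ⟨K, hK, hKr, hKs⟩ := exists_label D.bij m 0
  exact ⟨K, D.back K hK m 0 1 hKr hKs h1, D'.back K hK m 0 1 hKr hKs h2⟩

theorem ii_A (D : InD H L r s u v α ρ) (D' : InD G L' r (fun j => s (-j)) u' v' α' ρ')
    (hHG : Had (H * Gᴴ)) : HArrow (H * Gᴴ) L := by
  obtain ⟨A, hA⟩ : ∃ A : ZMod 3 → ℂ, ∀ n, A n = ∑ j, u j * star (u' j) * chi (n * j) :=
    ⟨_, fun _ => rfl⟩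
  obtain ⟨B, hB⟩ : ∃ B : ZMod 3 → ℂ, ∀ n, B n = ∑ j, v j * star (v' (-j)) * chi (n * j) :=
    ⟨_, fun _ => rfl⟩
  have ea : ∀ x w, ∑ j, u j * (star (G w (r j)) * (6 * α' w)) * chi (j * L x) =
      A (L x - L' w) := by
    intro x w
    rw [hA]
    refine sum_congr rfl fun j _ => ?_
    rw [zr D', ← chi_neg]
    have : chi ((L x - L' w) * j) = chi (-(j * L' w)) * chi (j * L x) := by
      rw [← chi_add]; congr 1; ring
    rw [this]; ring
  have eb : ∀ x w, ∑ j, v j * (star (G w (s j)) * (6 * α' w)) * chi (j * L x) =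
      star (ρ' w) * B (L x + L' w) := by
    intro x w
    rw [hB, mul_sum]
    refine sum_congr rfl fun j _ => ?_
    have e1 := zs D' w (-j)
    rw [neg_neg] at e1
    rw [e1, ← chi_neg]
    have : chi ((L x + L' w) * j) = chi (-(-j * L' w)) * chi (j * L x) := by
      rw [← chi_add]; congr 1; ring
    rw [this]; ring
  obtain ⟨e, f, f', hcore⟩ := core_A (a := fun j => u j * star (u' j))
    (b := fun j => v j * star (v' (-j)))
    (fun j => by
      rw [star_mul', star_star]
      linear_combination (star (u' j) * u' j) * D.hu j + D'.hu j)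
    (fun j => by
      rw [star_mul', star_star]
      linear_combination (star (v' (-j)) * v' (-j)) * D.hv j + D'.hv (-j))
    ρ ρ' L L' D.exists_class D'.exists_class D.hρ D'.hρ A B hA hB (fun x w => by
      have := D.pq _ 1 (hz_one D' hHG w) x
      rw [ea, eb, mul_one] at this
      exact this)
  refine ⟨D.fib, fun w => ?_⟩
  obtain ⟨c1, c2, c3⟩ := hcore (L' w)
  obtain ⟨w', hw', hρw'⟩ : ∃ w', L' w' = L' w - e ∧ ρ' w' = ρ' w *
      (chi (2 * f - L' w - (L' w - e)) * star (chi (2 * f' + L' w + (L' w - e)))) := by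
    obtain ⟨w1, hw1⟩ := D'.exists_class (L' w - e)
    have h1 := c3 w w1 rfl hw1
    rcases mul_self_eq_mul_self_iff.1 h1 with h2 | h2
    · exact ⟨w1, hw1, h2⟩
    · obtain ⟨w2, hw2, hρ2⟩ := D'.partner w1
      exact ⟨w2, hw2.trans hw1, by rw [hρ2, h2, neg_neg]⟩
  refine ⟨w', 6 * star (α' w) * α' w' * chi (2 * f - L' w - (L' w - e)), fun x => ?_⟩
  have hent : ∀ w, 6 * α' w * (H * Gᴴ) x w = α x * (A (L x - L' w) +
      ρ x * (star (ρ' w) * B (L x + L' w))) := by
    intro w
    rw [← ea x w, ← eb x w]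
    refine Eq.trans ?_ (D.hsum (fun y => star (G w y) * (6 * α' w)) x)
    rw [Matrix.mul_apply, mul_sum]
    refine sum_congr rfl fun y _ => ?_
    rw [conjTranspose_apply]; ring
  have h1 := hent w
  have h2 := hent w'
  rw [hw', hρw'] at h2
  have k1 := c1 (L x)
  have k2 := c2 (L x)
  have a1 := D'.hα w
  have a2 := D'.hα w'
  have t1 := chi_star_mul (2 * f - L' w - (L' w - e))
  have t2 := chi_star_mul (2 * f' + L' w + (L' w - e))
  simp only [star_mul', star_star] at h2
  generalize chi (2 * f - L' w - (L' w - e)) = T1 at *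
  generalize chi (2 * f' + L' w + (L' w - e)) = T2 at *
  -- goal : chi (L x) * M x w = 6 * star (α' w) * α' w' * T1 * M x w'
  linear_combination (-6 * chi (L x) * (H * Gᴴ) x w) * a1 + (chi (L x) * star (α' w)) * h1
    + (α x * star (α' w)) * k1 + (α x * star (α' w) * ρ x * star (ρ' w)) * k2
    - (star (α' w) * T1) * h2
    - (α x * star (α' w) * ρ x * star (ρ' w) * T2 * B (L x + (L' w - e))) * t1

theorem um_mul {x y : ℂ} (hx : star x * x = 1) (hy : star y * y = 1) :
    star (x * star y) * (x * star y) = 1 := by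
  rw [star_mul', star_star]
  linear_combination (star y * y) * hx + hy

theorem chi_sub_pow (k l : ZMod 3) : chi (2 * k) * star (chi (2 * l)) =
    chi (k - l) * chi (k - l) := by
  rw [← chi_neg, ← chi_add, ← chi_add]; congr 1; ring

theorem chi_sub_star (k l : ZMod 3) : chi (1 * k) * star (chi (1 * l)) = chi (k - l) := by
  rw [← chi_neg, ← chi_add]; congr 1; ring

theorem ii_D_false (D : InD H L r s u v α ρ) (D' : InD G L' r' s' u' v' α' ρ')
    (hHG : Had (H * Gᴴ)) (h0 : r' 0 = s 0) (h1 : r' 1 = r 1) (h2 : r' 2 = r 2)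
    (k0 : s' 0 = r 0) (k1 : s' 1 = s 1) (k2 : s' 2 = s 2) : False := by
  choose ξ hξ using D.exists_class
  choose η hη using D'.exists_class
  have hP : ∀ k w, ∑ j, u j * (star (G w (r j)) * (6 * α' w)) * chi (j * L (ξ k)) =
      u 0 * star (v' 0) * star (ρ' w) + (u 1 * star (u' 1) * chi (k - L' w) +
        u 2 * star (u' 2) * (chi (k - L' w) * chi (k - L' w))) := by
    intro k w
    rw [sum_zmod3, ← k0, ← h1, ← h2, zs D', zr D', zr D', hξ, ← chi_sub_pow, zero_mul, zero_mul,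
      chi_zero, star_one, ← chi_sub_star k (L' w)]
    ring
  have hQ : ∀ k w, ∑ j, v j * (star (G w (s j)) * (6 * α' w)) * chi (j * L (ξ k)) =
      v 0 * star (u' 0) + star (ρ' w) * (v 1 * star (v' 1) * chi (k - L' w) +
        v 2 * star (v' 2) * (chi (k - L' w) * chi (k - L' w))) := by
    intro k w
    rw [sum_zmod3, ← h0, ← k1, ← k2, zr D', zs D', zs D', hξ, ← chi_sub_pow, zero_mul, zero_mul,
      chi_zero, star_one, ← chi_sub_star k (L' w)]
    ring
  refine core_D (um_mul (D.hu 1) (D'.hu 1)) (um_mul (D.hu 2) (D'.hu 2)) (um_mul (D.hu 0) (D'.hv 0))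
    (um_mul (D.hv 0) (D'.hu 0)) (um_mul (D.hv 1) (D'.hv 1)) (um_mul (D.hv 2) (D'.hv 2))
    (fun k => ρ (ξ k)) (fun l => ρ' (η l)) (fun k => D.hρ _) (fun l => D'.hρ _) ?_
  intro k l t ht
  obtain ⟨w, hw, hρw⟩ : ∃ w, L' w = l ∧ star (ρ' w) = t * star (ρ' (η l)) := by
    rcases ht with rfl | rfl
    · exact ⟨η l, hη l, by rw [one_mul]⟩
    · obtain ⟨w, hw, hρ⟩ := D'.partner (η l)
      exact ⟨w, hw.trans (hη l), by rw [hρ, star_neg]; ring⟩
  have := D.pq _ 1 (hz_one D' hHG w) (ξ k)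
  rw [hP, hQ, hw, hρw, mul_one] at this
  exact this

theorem ii_M_false (D : InD H L r s u v α ρ) (D' : InD G L' r' s' u' v' α' ρ')
    (hHG : Had (H * Gᴴ)) (h0 : r' 0 = s 0) (h1 : r' 1 = r 1) (h2 : r' 2 = r 2)
    (k0 : s' 0 = r 0) (k1 : s' 1 = s 2) (k2 : s' 2 = s 1) : False := by
  choose ξ hξ using D.exists_class
  choose η hη using D'.exists_class
  have hP : ∀ k w, ∑ j, u j * (star (G w (r j)) * (6 * α' w)) * chi (j * L (ξ k)) =
      u 0 * star (v' 0) * star (ρ' w) + (u 1 * star (u' 1) * chi (k - L' w) +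
        u 2 * star (u' 2) * (chi (k - L' w) * chi (k - L' w))) := by
    intro k w
    rw [sum_zmod3, ← k0, ← h1, ← h2, zs D', zr D', zr D', hξ, ← chi_sub_pow, zero_mul, zero_mul,
      chi_zero, star_one, ← chi_sub_star k (L' w)]
    ring
  have hQ : ∀ k w, ∑ j, v j * (star (G w (s j)) * (6 * α' w)) * chi (j * L (ξ k)) =
      v 0 * star (u' 0) + star (ρ' w) * (v 1 * star (v' 2) * chi (k + L' w) +
        v 2 * star (v' 1) * (chi (k + L' w) * chi (k + L' w))) := by
    intro k w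
    have e1 : chi (k + L' w) = chi (1 * k) * star (chi (2 * L' w)) := by
      rw [← chi_neg, ← chi_add]; congr 1
      have : (3 : ZMod 3) = 0 := rfl
      linear_combination (L' w) * this
    have e2 : chi (k + L' w) * chi (k + L' w) = chi (2 * k) * star (chi (1 * L' w)) := by
      rw [← chi_neg, ← chi_add, ← chi_add]; congr 1
      have : (3 : ZMod 3) = 0 := rfl
      linear_combination (L' w) * this
    rw [sum_zmod3, ← h0, ← k1, ← k2, zr D', zs D', zs D', hξ, e2, e1, zero_mul, zero_mul,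
      chi_zero, star_one]
    ring
  refine core_M (um_mul (D.hu 1) (D'.hu 1)) (um_mul (D.hu 2) (D'.hu 2)) (um_mul (D.hu 0) (D'.hv 0))
    (um_mul (D.hv 0) (D'.hu 0)) (um_mul (D.hv 1) (D'.hv 2)) (um_mul (D.hv 2) (D'.hv 1))
    (fun l => ρ' (η l)) (fun l => D'.hρ _) ?_
  intro k l t ht
  obtain ⟨w, hw, hρw⟩ : ∃ w, L' w = l ∧ star (ρ' w) = t * star (ρ' (η l)) := by
    rcases ht with rfl | rfl
    · exact ⟨η l, hη l, by rw [one_mul]⟩
    · obtain ⟨w, hw, hρ⟩ := D'.partner (η l)
      exact ⟨w, hw.trans (hη l), by rw [hρ, star_neg]; ring⟩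
  have := (D.pq _ 1 (hz_one D' hHG w) (ξ k)).1
  rw [hP, hQ, hw, hρw, mul_one] at this
  exact this

/-- Different orbits: all remaining positions. -/
theorem ii_B_false (D : InD H L r s u v α ρ) (D' : InD G L' r' s' u' v' α' ρ')
    (hHG : Had (H * Gᴴ)) (h0 : r' 0 = s 0) (k0 : s' 0 = r 0) {i1 i2 j1 j2 : ZMod 3}
    (h1 : r' 1 = r i1) (h2 : r' 2 = r i2) (k1 : s' 1 = s j1) (k2 : s' 2 = s j2) : False := by
  have hz : ∀ {a b : ZMod 3}, r' a = s' b → False := fun {a b} h => by
    have := D'.bij.1 (a₁ := Sum.inl a) (a₂ := Sum.inr b) h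
    exact absurd this (by simp)
  have i10 : i1 ≠ 0 := fun h => hz (a := 1) (b := 0) (by rw [h1, h, k0])
  have i20 : i2 ≠ 0 := fun h => hz (a := 2) (b := 0) (by rw [h2, h, k0])
  have j10 : j1 ≠ 0 := fun h => hz (a := 0) (b := 1) (by rw [k1, h, h0])
  have j20 : j2 ≠ 0 := fun h => hz (a := 0) (b := 2) (by rw [k2, h, h0])
  have i12 : i1 ≠ i2 := fun h => by
    have := D'.injr (show r' 1 = r' 2 by rw [h1, h2, h])
    exact absurd this (by decide)
  have j12 : j1 ≠ j2 := fun h => by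
    have := D'.injs (show s' 1 = s' 2 by rw [k1, k2, h])
    exact absurd this (by decide)
  have hi : (i1 = 1 ∧ i2 = 2) ∨ (i1 = 2 ∧ i2 = 1) := by
    revert i10 i20 i12; clear h1 h2; revert i1 i2; decide
  have hj : (j1 = 1 ∧ j2 = 2) ∨ (j1 = 2 ∧ j2 = 1) := by
    revert j10 j20 j12; clear k1 k2; revert j1 j2; decide
  have n1 : -(1 : ZMod 3) = 2 := rfl
  have n2 : -(2 : ZMod 3) = 1 := rfl
  rcases hi with ⟨rfl, rfl⟩ | ⟨rfl, rfl⟩ <;> rcases hj with ⟨rfl, rfl⟩ | ⟨rfl, rfl⟩
  · exact ii_D_false D D' hHG h0 h1 h2 k0 k1 k2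
  · exact ii_M_false D D' hHG h0 h1 h2 k0 k1 k2
  · exact ii_M_false D D'.neg hHG (by rw [neg_zero]; exact h0) (by rw [n1]; exact h2)
      (by rw [n2]; exact h1) (by rw [neg_zero]; exact k0) (by rw [n1]; exact k2)
      (by rw [n2]; exact k1)
  · exact ii_D_false D D'.neg hHG (by rw [neg_zero]; exact h0) (by rw [n1]; exact h2)
      (by rw [n2]; exact h1) (by rw [neg_zero]; exact k0) (by rw [n1]; exact k2)
      (by rw [n2]; exact k1)

/-- `σ` (a diagonal sign matrix in the `Y`-frame) swaps the two elements of each pair of `X`. -/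
def SwapP (H : M6) (σ : Fin 6 → ℂ) (L : Fin 6 → ZMod 3) : Prop :=
  ∀ x x', x ≠ x' → L x = L x' → ∃ z : ℂ, ∀ y, σ y * H x y = z * H x' y

theorem InD.swapP (D : InD H L r s u v α ρ) {σ : Fin 6 → ℂ} (h1 : ∀ j, σ (r j) = 1)
    (h2 : ∀ j, σ (s j) = -1) : SwapP H σ L := by
  intro x x' hne hL
  refine ⟨6 * α x * star (α x'), fun y => ?_⟩
  have a1 := D.hα x'
  obtain ⟨i, hi⟩ := D.bij.2 y
  rcases i with j | j
  · have hy : r j = y := hi
    rw [← hy, D.hr, D.hr, h1, hL]
    linear_combination (-6 * u j * chi (j * L x') * α x) * a1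
  · have hy : s j = y := hi
    rw [← hy, D.hs, D.hs, h2, D.opp x x' hne hL, hL]
    linear_combination (6 * v j * chi (j * L x') * α x * ρ x) * a1

theorem SwapP.of_neg {σ : Fin 6 → ℂ} (h : SwapP H σ (fun x => -L x)) : SwapP H σ L :=
  fun x x' hne hL => h x x' hne (congrArg Neg.neg hL)

/-- Conclusion of lemma (II). -/
def IIc (H G : M6) (L L' : Fin 6 → ZMod 3) : Prop :=
  (∃ σ : Fin 6 → ℂ, (∀ y, σ y = 1 ∨ σ y = -1) ∧ ∑ y, σ y = 0 ∧ SwapP H σ L ∧ SwapP G σ L') ∧
    ((∃ K, HArrow Hᴴ K ∧ HArrow Gᴴ K) ∨ HArrow (H * Gᴴ) L)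

theorem IIc.of_neg (h : IIc H G L (fun x => -L' x)) : IIc H G L L' :=
  ⟨let ⟨σ, h1, h2, h3, h4⟩ := h.1; ⟨σ, h1, h2, h3, h4.of_neg⟩, h.2⟩

theorem exists_sign (hb : Function.Bijective (Sum.elim r s)) : ∃ σ : Fin 6 → ℂ,
    (∀ y, σ y = 1 ∨ σ y = -1) ∧ (∀ j, σ (r j) = 1) ∧ (∀ j, σ (s j) = -1) := by
  obtain ⟨e, he⟩ : ∃ e : (ZMod 3 ⊕ ZMod 3) ≃ Fin 6, ∀ i, e i = Sum.elim r s i :=
    ⟨Equiv.ofBijective _ hb, fun _ => rfl⟩
  have hr : ∀ j, e.symm (r j) = Sum.inl j := fun j => by
    rw [Equiv.symm_apply_eq, he]; rfl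
  have hs : ∀ j, e.symm (s j) = Sum.inr j := fun j => by
    rw [Equiv.symm_apply_eq, he]; rfl
  refine ⟨fun y => Sum.elim (fun _ => 1) (fun _ => -1) (e.symm y), fun y => ?_,
    fun j => by beta_reduce; rw [hr]; rfl, fun j => by beta_reduce; rw [hs]; rfl⟩
  beta_reduce
  generalize e.symm y = i
  rcases i with j | j
  · exact Or.inl rfl
  · exact Or.inr rfl

theorem zmod3_pm : ∀ t : ZMod 3, t ≠ 0 → t = 1 ∨ t = -1 := by decide

theorem affine_of_inj : ∀ f : ZMod 3 → ZMod 3, Function.Injective f →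
    ∃ e c, e ≠ 0 ∧ ∀ j, f j = e * j + c := by
  intro f hf
  refine ⟨f 1 - f 0, f 0, ?_, ?_⟩
  · intro h
    have := hf (sub_eq_zero.1 h)
    exact absurd this (by decide)
  · have h1 : f 1 ≠ f 0 := fun h => absurd (hf h) (by decide)
    have h2 : f 2 ≠ f 0 := fun h => absurd (hf h) (by decide)
    have h3 : f 2 ≠ f 1 := fun h => absurd (hf h) (by decide)
    have key : ∀ a b c : ZMod 3, b ≠ a → c ≠ a → c ≠ b → c = (b - a) * 2 + a := by decide
    intro j
    rcases zmod3_cases j with rfl | rfl | rfl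
    · ring
    · ring
    · exact key _ _ _ h1 h2 h3

/-- Same orbits. -/
theorem ii_same (D : InD H L r s u v α ρ) (D' : InD G L' r' s' u' v' α' ρ')
    (hHG : Had (H * Gᴴ)) (h1 : ∀ j, ∃ i, r' j = r i) (h2 : ∀ j, ∃ i, s' j = s i) :
    IIc H G L L' := by
  obtain ⟨σ, hσ, hσr, hσs⟩ := exists_sign D.bij
  have hsum : ∑ y, σ y = 0 := by
    rw [D.sum]
    simp only [hσr, hσs, sum_const, card_univ, ZMod.card, nsmul_eq_mul]
    ring
  choose f hf using h1
  choose g hg using h2
  refine ⟨⟨σ, hσ, hsum, D.swapP hσr hσs, D'.swapP (fun j => by rw [hf]; exact hσr _)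
    (fun j => by rw [hg]; exact hσs _)⟩, ?_⟩
  have hfi : Function.Injective f := fun a b hab => D'.injr (by rw [hf, hf, hab])
  have hgi : Function.Injective g := fun a b hab => D'.injs (by rw [hg, hg, hab])
  obtain ⟨e, c, he, hfe⟩ := affine_of_inj f hfi
  obtain ⟨e', c', he', hge⟩ := affine_of_inj g hgi
  -- normal position after reparametrising the `Z`-data
  have key : ∀ {L'' : Fin 6 → ZMod 3} {r'' s'' : ZMod 3 → Fin 6} {u'' v'' : ZMod 3 → ℂ}
      {α'' ρ'' : Fin 6 → ℂ} {t : ZMod 3}, InD G L'' r'' s'' u'' v'' α'' ρ'' → t ≠ 0 →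
      (∀ j, r'' j = r j) → (∀ j, s'' j = s (t * j)) →
      ((∃ K, HArrow Hᴴ K ∧ HArrow Gᴴ K) ∨ HArrow (H * Gᴴ) L) := by
    intro L'' r'' s'' u'' v'' α'' ρ'' t D'' ht hr hs
    have hr' : r'' = r := funext hr
    subst hr'
    have ht' : t = 1 ∨ t = -1 := zmod3_pm t ht
    rcases ht' with rfl | rfl
    · have hs' : s'' = s := funext fun j => by rw [hs, one_mul]
      subst hs'
      exact Or.inl (ii_C D D'' hHG)
    · have hs' : s'' = fun j => s (-j) := funext fun j => by rw [hs]; congr 1; ring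
      subst hs'
      exact Or.inr (ii_A D D'' hHG)
  have hee : e * e = 1 := sq_one he
  have hee' : e' * e' = 1 := sq_one he'
  have he1 : e = 1 ∨ e = -1 := zmod3_pm e he
  rcases he1 with rfl | rfl
  · refine key (D'.shift (-c) (-(e' * c'))) he' (fun j => ?_) (fun j => ?_)
    · rw [hf, hfe]; congr 1; ring
    · rw [hg, hge]; congr 1
      linear_combination (-c') * hee'
  · refine key (t := -e') (D'.neg.shift (-c) (e' * c')) (neg_ne_zero.2 he') (fun j => ?_) (fun j => ?_)
    · rw [hf, hfe]; congr 1; ring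
    · rw [hg, hge]; congr 1
      linear_combination (-c') * hee'

theorem pat_lemma (p0 p1 p2 q0 q1 q2 : Bool)
    (h : (if p0 then 1 else 0) + (if p1 then 1 else 0) + (if p2 then 1 else 0) +
    ((if q0 then 1 else 0) + (if q1 then 1 else 0) + (if q2 then 1 else 0)) = 3) :
    ((p0 = true ∧ p1 = true ∧ p2 = true) ∧ (q0 = false ∧ q1 = false ∧ q2 = false)) ∨
    ((q0 = true ∧ q1 = true ∧ q2 = true) ∧ (p0 = false ∧ p1 = false ∧ p2 = false)) ∨
    (((p0 = false ∧ p1 = true ∧ p2 = true) ∨ (p1 = false ∧ p2 = true ∧ p0 = true) ∨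
      (p2 = false ∧ p0 = true ∧ p1 = true)) ∧
     ((q0 = true ∧ q1 = false ∧ q2 = false) ∨ (q1 = true ∧ q2 = false ∧ q0 = false) ∨
      (q2 = true ∧ q0 = false ∧ q1 = false))) ∨
    (((q0 = false ∧ q1 = true ∧ q2 = true) ∨ (q1 = false ∧ q2 = true ∧ q0 = true) ∨
      (q2 = false ∧ q0 = true ∧ q1 = true)) ∧
     ((p0 = true ∧ p1 = false ∧ p2 = false) ∨ (p1 = true ∧ p2 = false ∧ p0 = false) ∨
      (p2 = true ∧ p0 = false ∧ p1 = false))) := by
  revert h
  cases p0 <;> cases p1 <;> cases p2 <;> cases q0 <;> cases q1 <;> cases q2 <;> simp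

theorem ii_diff_false (D : InD H L r s u v α ρ) (D' : InD G L' r' s' u' v' α' ρ')
    (hHG : Had (H * Gᴴ)) (c d : ZMod 3) (h0 : ∃ a, r' c = s a) (h1 : ∃ i, r' (c + 1) = r i)
    (h2 : ∃ i, r' (c + 2) = r i) (k0 : ∃ b, s' d = r b) (k1 : ∃ j, s' (d + 1) = s j)
    (k2 : ∃ j, s' (d + 2) = s j) : False := by
  obtain ⟨a, h0⟩ := h0
  obtain ⟨i1, h1⟩ := h1
  obtain ⟨i2, h2⟩ := h2
  obtain ⟨b, k0⟩ := k0
  obtain ⟨j1, k1⟩ := k1
  obtain ⟨j2, k2⟩ := k2
  refine ii_B_false (D.shift b a) (D'.shift c d) hHG (i1 := i1 - b) (i2 := i2 - b) (j1 := j1 - a)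
    (j2 := j2 - a) ?_ ?_ ?_ ?_ ?_ ?_
  · simpa using h0
  · simpa using k0
  · rw [sub_add_cancel, add_comm 1 c]; exact h1
  · rw [sub_add_cancel, add_comm 2 c]; exact h2
  · rw [sub_add_cancel, add_comm 1 d]; exact k1
  · rw [sub_add_cancel, add_comm 2 d]; exact k2

/-- (II) at the level of transition matrices. -/
theorem ii {H G : M6} {L L' : Fin 6 → ZMod 3} (hH : Had H) (hG : Had G) (hHG : Had (H * Gᴴ))
    (h : HArrow H L) (h' : HArrow G L') : IIc H G L L' := by
  obtain ⟨r, s, u, v, α, ρ, D⟩ := h.inD hH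
  obtain ⟨r', s', u', v', α', ρ', D'⟩ := h'.inD hG
  obtain ⟨e, he⟩ : ∃ e : (ZMod 3 ⊕ ZMod 3) ≃ Fin 6, ∀ i, e i = Sum.elim r s i :=
    ⟨Equiv.ofBijective _ D.bij, fun _ => rfl⟩
  have hleft : ∀ y, (e.symm y).isLeft = true → ∃ i, y = r i := by
    intro y hy
    obtain ⟨i, hi⟩ := Sum.isLeft_iff.1 hy
    exact ⟨i, by rw [← e.apply_symm_apply y, hi, he]; rfl⟩
  have hright : ∀ y, (e.symm y).isLeft = false → ∃ i, y = s i := by
    intro y hy
    obtain ⟨i, hi⟩ := Sum.isRight_iff.1 (show (e.symm y).isRight = true by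
      rw [← Sum.not_isLeft, hy]; decide)
    exact ⟨i, by rw [← e.apply_symm_apply y, hi, he]; rfl⟩
  have hcount : ∑ i, (if (e.symm (Sum.elim r' s' i)).isLeft then 1 else 0) = 3 := by
    have hb : Function.Bijective (fun i => e.symm (Sum.elim r' s' i)) :=
      e.symm.bijective.comp D'.bij
    rw [hb.sum_comp (fun i => if i.isLeft then 1 else 0), Fintype.sum_sum_type, sum_zmod3,
      sum_zmod3]
    rfl
  rw [Fintype.sum_sum_type, sum_zmod3, sum_zmod3] at hcount
  simp only [Sum.elim_inl, Sum.elim_inr] at hcount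
  have z12 : (1 : ZMod 3) + 1 = 2 := rfl
  have z13 : (1 : ZMod 3) + 2 = 0 := rfl
  have z21 : (2 : ZMod 3) + 1 = 0 := rfl
  have z22 : (2 : ZMod 3) + 2 = 1 := rfl
  rcases pat_lemma _ _ _ _ _ _ hcount with ⟨⟨a0, a1, a2⟩, ⟨b0, b1, b2⟩⟩ | ⟨⟨a0, a1, a2⟩, ⟨b0, b1, b2⟩⟩ |
    ⟨hp, hq⟩ | ⟨hq, hp⟩
  · exact ii_same D D' hHG
      (fun j => by rcases zmod3_cases j with rfl | rfl | rfl
                   exacts [hleft _ a0, hleft _ a1, hleft _ a2])
      (fun j => by rcases zmod3_cases j with rfl | rfl | rfl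
                   exacts [hright _ b0, hright _ b1, hright _ b2])
  · exact ii_same D D'.swap hHG
      (fun j => by rcases zmod3_cases j with rfl | rfl | rfl
                   exacts [hleft _ a0, hleft _ a1, hleft _ a2])
      (fun j => by rcases zmod3_cases j with rfl | rfl | rfl
                   exacts [hright _ b0, hright _ b1, hright _ b2])
  · exfalso
    rcases hp with ⟨a0, a1, a2⟩ | ⟨a0, a1, a2⟩ | ⟨a0, a1, a2⟩ <;>
    rcases hq with ⟨b0, b1, b2⟩ | ⟨b0, b1, b2⟩ | ⟨b0, b1, b2⟩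
    · exact ii_diff_false D D' hHG 0 0 (hright _ a0) (hleft _ a1) (hleft _ a2) (hleft _ b0)
        (hright _ b1) (hright _ b2)
    · exact ii_diff_false D D' hHG 0 1 (hright _ a0) (hleft _ a1) (hleft _ a2) (hleft _ b0)
        (hright _ b1) (hright _ b2)
    · exact ii_diff_false D D' hHG 0 2 (hright _ a0) (hleft _ a1) (hleft _ a2) (hleft _ b0)
        (hright _ b1) (hright _ b2)
    · exact ii_diff_false D D' hHG 1 0 (hright _ a0) (hleft _ a1) (hleft _ a2) (hleft _ b0)
        (hright _ b1) (hright _ b2)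
    · exact ii_diff_false D D' hHG 1 1 (hright _ a0) (hleft _ a1) (hleft _ a2) (hleft _ b0)
        (hright _ b1) (hright _ b2)
    · exact ii_diff_false D D' hHG 1 2 (hright _ a0) (hleft _ a1) (hleft _ a2) (hleft _ b0)
        (hright _ b1) (hright _ b2)
    · exact ii_diff_false D D' hHG 2 0 (hright _ a0) (hleft _ a1) (hleft _ a2) (hleft _ b0)
        (hright _ b1) (hright _ b2)
    · exact ii_diff_false D D' hHG 2 1 (hright _ a0) (hleft _ a1) (hleft _ a2) (hleft _ b0)
        (hright _ b1) (hright _ b2)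
    · exact ii_diff_false D D' hHG 2 2 (hright _ a0) (hleft _ a1) (hleft _ a2) (hleft _ b0)
        (hright _ b1) (hright _ b2)
  · exfalso
    rcases hp with ⟨a0, a1, a2⟩ | ⟨a0, a1, a2⟩ | ⟨a0, a1, a2⟩ <;>
    rcases hq with ⟨b0, b1, b2⟩ | ⟨b0, b1, b2⟩ | ⟨b0, b1, b2⟩
    · exact ii_diff_false D D'.swap hHG 0 0 (hright _ b0) (hleft _ b1) (hleft _ b2) (hleft _ a0)
        (hright _ a1) (hright _ a2)
    · exact ii_diff_false D D'.swap hHG 1 0 (hright _ b0) (hleft _ b1) (hleft _ b2) (hleft _ a0)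
        (hright _ a1) (hright _ a2)
    · exact ii_diff_false D D'.swap hHG 2 0 (hright _ b0) (hleft _ b1) (hleft _ b2) (hleft _ a0)
        (hright _ a1) (hright _ a2)
    · exact ii_diff_false D D'.swap hHG 0 1 (hright _ b0) (hleft _ b1) (hleft _ b2) (hleft _ a0)
        (hright _ a1) (hright _ a2)
    · exact ii_diff_false D D'.swap hHG 1 1 (hright _ b0) (hleft _ b1) (hleft _ b2) (hleft _ a0)
        (hright _ a1) (hright _ a2)
    · exact ii_diff_false D D'.swap hHG 2 1 (hright _ b0) (hleft _ b1) (hleft _ b2) (hleft _ a0)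
        (hright _ a1) (hright _ a2)
    · exact ii_diff_false D D'.swap hHG 0 2 (hright _ b0) (hleft _ b1) (hleft _ b2) (hleft _ a0)
        (hright _ a1) (hright _ a2)
    · exact ii_diff_false D D'.swap hHG 1 2 (hright _ b0) (hleft _ b1) (hleft _ b2) (hleft _ a0)
        (hright _ a1) (hright _ a2)
    · exact ii_diff_false D D'.swap hHG 2 2 (hright _ b0) (hleft _ b1) (hleft _ b2) (hleft _ a0)
        (hright _ a1) (hright _ a2)

end

end Vale.Agent.P355.H665
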