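import Vale.Agent.P355.H665.FOO

/-! An arrow `X → Y` followed by `Y → Z` can be reversed. -/

namespace Vale.Agent.P355.H665

open Finset Matrix Vale.Agent.P355

theorem chi_three (a : ZMod 3) : chi a * chi a * chi a = 1 := by
  rw [← chi_add, ← chi_add, show a + a + a = 3 * a by ring,
      show (3 : ZMod 3) = 0 from rfl, zero_mul, chi_zero]

theorem exists_chi {z : ℂ} (h : z * z * z = 1) : ∃ c : ZMod 3, z = chi c := by
  have hom := om_sq
  have e : (z - 1) * ((z - om) * (z - om * om)) = 0 := by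
    linear_combination h + (-(z * z) + z) * hom + (z - 1) * om_cube
  rcases mul_eq_zero.1 e with h1 | h1
  · exact ⟨0, by rw [chi_zero]; linear_combination h1⟩
  · rcases mul_eq_zero.1 h1 with h1 | h1
    · exact ⟨1, by rw [chi_one]; linear_combination h1⟩
    · exact ⟨2, by rw [chi_two]; linear_combination h1⟩

theorem star_pos_aux {w v : ℂ} (h1 : star w * w = 9) (h2 : star w * w + star v * v = 6) :
    False := by
  rw [← normSq_star] at h1
  rw [← normSq_star, ← normSq_star] at h2
  have h1' : Complex.normSq w = 9 := by exact_mod_cast h1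
  have h2' : Complex.normSq w + Complex.normSq v = 6 := by exact_mod_cast h2
  have := Complex.normSq_nonneg v
  linarith

theorem InD.partner {H : M6} {L : Fin 6 → ZMod 3} {r s : ZMod 3 → Fin 6} {u v : ZMod 3 → ℂ}
    {α ρ : Fin 6 → ℂ} (D : InD H L r s u v α ρ) (x : Fin 6) :
    ∃ x', L x' = L x ∧ ρ x' = -ρ x := by
  have h := D.fib (L x)
  have h1 : 1 < (univ.filter fun x' => L x' = L x).card := by rw [h]; norm_num
  obtain ⟨x', hx', hne⟩ := Finset.exists_mem_ne h1 x
  rw [mem_filter] at hx'
  exact ⟨x', hx'.2, D.opp x x' (Ne.symm hne) hx'.2.symm⟩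

theorem InD.exists_class {H : M6} {L : Fin 6 → ZMod 3} {r s : ZMod 3 → Fin 6} {u v : ZMod 3 → ℂ}
    {α ρ : Fin 6 → ℂ} (D : InD H L r s u v α ρ) (k : ZMod 3) : ∃ x, L x = k := by
  obtain ⟨x, hx⟩ := Finset.card_pos.1 (by rw [D.fib k]; norm_num :
    0 < (univ.filter fun x => L x = k).card)
  rw [mem_filter] at hx
  exact ⟨x, hx.2⟩

/-- Unbiasedness relations of a vector with respect to `X` in the `Y`-frame. -/
theorem InD.pq {H : M6} {L : Fin 6 → ZMod 3} {r s : ZMod 3 → Fin 6} {u v : ZMod 3 → ℂ}
    {α ρ : Fin 6 → ℂ} (D : InD H L r s u v α ρ) (z : Fin 6 → ℂ) (c : ℂ)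
    (hz : ∀ x, star (∑ y, H x y * z y) * (∑ y, H x y * z y) = c) (x : Fin 6) :
    star (∑ j, u j * z (r j) * chi (j * L x)) * (∑ j, u j * z (r j) * chi (j * L x)) +
      star (∑ j, v j * z (s j) * chi (j * L x)) * (∑ j, v j * z (s j) * chi (j * L x)) = 6 * c ∧
    star (∑ j, u j * z (r j) * chi (j * L x)) * (ρ x * (∑ j, v j * z (s j) * chi (j * L x))) +
      (∑ j, u j * z (r j) * chi (j * L x)) *
      star (ρ x * (∑ j, v j * z (s j) * chi (j * L x))) = 0 := by
  have hsum : ∀ x, ∑ y, H x y * z y = α x * ((∑ j, u j * z (r j) * chi (j * L x)) +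
      ρ x * (∑ j, v j * z (s j) * chi (j * L x))) := by
    intro x
    rw [D.sum, mul_add]
    congr 1
    · rw [mul_sum]
      refine sum_congr rfl fun j _ => ?_
      rw [D.hr]; ring
    · rw [mul_sum, mul_sum]
      refine sum_congr rfl fun j _ => ?_
      rw [D.hs]; ring
  obtain ⟨x', hL, hρ⟩ := D.partner x
  have h1 := hz x
  have h2 := hz x'
  rw [hsum] at h1 h2
  rw [hL, hρ] at h2
  generalize (∑ j, u j * z (r j) * chi (j * L x)) = P at *
  generalize (∑ j, v j * z (s j) * chi (j * L x)) = Q at *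
  rw [star_mul', star_add, star_mul'] at h1 h2
  rw [star_neg] at h2
  have a1 := D.hα x
  have a2 := D.hα x'
  have a3 := D.hρ x
  have k1 : (star P + star (ρ x) * star Q) * (P + ρ x * Q) = 6 * c := by
    linear_combination (6 : ℂ) * h1 - 6 * ((star P + star (ρ x) * star Q) * (P + ρ x * Q)) * a1
  have k2 : (star P + -star (ρ x) * star Q) * (P + -ρ x * Q) = 6 * c := by
    linear_combination (6 : ℂ) * h2 - 6 * ((star P + -star (ρ x) * star Q) * (P + -ρ x * Q)) * a2
  constructor
  · linear_combination (1 / 2 : ℂ) * k1 + (1 / 2 : ℂ) * k2 - star Q * Q * a3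
  · rw [star_mul']
    linear_combination (1 / 2 : ℂ) * k1 - (1 / 2 : ℂ) * k2

/-- Reversing an arrow. -/
theorem InD.back {H : M6} {L : Fin 6 → ZMod 3} {r s : ZMod 3 → Fin 6} {u v : ZMod 3 → ℂ}
    {α ρ : Fin 6 → ℂ} (D : InD H L r s u v α ρ) (M : Fin 6 → ZMod 3)
    (hM : ∀ k, (univ.filter fun x => M x = k).card = 2) (p q t : ZMod 3)
    (hr : ∀ j, M (r j) = p + t * j) (hs : ∀ j, M (s j) = q + t * j)
    (hρ : ∀ x x', L x' = L x - t → ρ x' * ρ x' = ρ x * ρ x * (chi (p - q) * chi (p - q))) :
    HArrow Hᴴ M := by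
  refine ⟨hM, fun x => ?_⟩
  obtain ⟨x', hx', hρx'⟩ : ∃ x', L x' = L x - t ∧ ρ x' = ρ x * chi (p - q) := by
    obtain ⟨x1, hx1⟩ := D.exists_class (L x - t)
    have h1 := hρ x x1 hx1
    have h2 : (ρ x1 - ρ x * chi (p - q)) * (ρ x1 + ρ x * chi (p - q)) = 0 := by
      linear_combination h1
    rcases mul_eq_zero.1 h2 with h3 | h3
    · exact ⟨x1, hx1, by linear_combination h3⟩
    · obtain ⟨x2, hx2, hρ2⟩ := D.partner x1
      exact ⟨x2, hx2.trans hx1, by rw [hρ2]; linear_combination -h3⟩
  refine ⟨x', chi p * star (α x) * α x' * 6, fun y => ?_⟩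
  rw [conjTranspose_apply, conjTranspose_apply]
  have a1 := D.hα x'
  have e1 : ∀ j, star (chi (j * L x')) = chi (t * j) * star (chi (j * L x)) := by
    intro j
    rw [hx', ← chi_neg, ← chi_neg, ← chi_add]; congr 1; ring
  obtain ⟨i, hi⟩ := D.bij.2 y
  rcases i with j | j
  · have hy : r j = y := hi
    rw [← hy, D.hr, D.hr, hr, chi_add]
    simp only [star_mul', e1]
    linear_combination (-6 * chi p * chi (t * j) * star (u j) * star (chi (j * L x)) * star (α x)) * a1
  · have hy : s j = y := hi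
    rw [← hy, D.hs, D.hs, hs, chi_add, hρx']
    have e2 : chi p * star (chi (p - q)) = chi q := by
      rw [← chi_neg, ← chi_add]; congr 1; ring
    simp only [star_mul', e1]
    linear_combination (-6 * chi p * chi (t * j) * star (v j) * star (chi (j * L x)) *
      star (ρ x) * star (chi (p - q)) * star (α x)) * a1
      - (chi (t * j) * star (v j) * star (chi (j * L x)) * star (ρ x) * star (α x)) * e2

/-- Double correlation identity along the two orbits. -/
theorem corr2 {a b : ZMod 3 → ℂ} {f g : ZMod 3 → ZMod 3} {c : ℂ}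
    (h : ∀ m k : ZMod 3,
      star (∑ j, a j * chi (m * f j + k * j)) * (∑ j, a j * chi (m * f j + k * j)) +
      star (∑ j, b j * chi (m * g j + k * j)) * (∑ j, b j * chi (m * g j + k * j)) = c)
    (t : ZMod 3) :
    ∑ i, (if f (i + 1) - f i = t then star (a i) * a (i + 1) else 0) +
      ∑ i, (if g (i + 1) - g i = t then star (b i) * b (i + 1) else 0) = 0 := by
  have hexp : ∀ (a : ZMod 3 → ℂ) (f : ZMod 3 → ZMod 3) (m k : ZMod 3),
      star (∑ j, a j * chi (m * f j + k * j)) * (∑ j, a j * chi (m * f j + k * j)) =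
      ∑ i : ZMod 3 × ZMod 3, star (a i.1) * a i.2 * chi (m * (f i.2 - f i.1) + k * (i.2 - i.1)) := by
    intro a f m k
    rw [star_sum, sum_mul_sum, Fintype.sum_prod_type]
    refine sum_congr rfl fun i _ => sum_congr rfl fun j _ => ?_
    have e : chi (m * (f j - f i) + k * (j - i)) =
        star (chi (m * f i + k * i)) * chi (m * f j + k * j) := by
      rw [← chi_neg, ← chi_add]; congr 1; ring
    show star (a i * chi (m * f i + k * i)) * (a j * chi (m * f j + k * j)) =
      star (a i) * a j * chi (m * (f j - f i) + k * (j - i))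
    rw [e, star_mul']; ring
  have hsel : ∀ (a : ZMod 3 → ℂ) (f : ZMod 3 → ZMod 3),
      ∑ i : ZMod 3 × ZMod 3, (if f i.2 - f i.1 = t ∧ i.2 - i.1 = 1 then star (a i.1) * a i.2 else 0)
      = ∑ i, (if f (i + 1) - f i = t then star (a i) * a (i + 1) else 0) := by
    intro a f
    rw [Fintype.sum_prod_type]
    refine sum_congr rfl fun i _ => ?_
    rw [sum_eq_single (i + 1)]
    · simp
    · intro j _ hj
      have : ¬ (j - i = 1) := fun e => hj (by rw [← e]; ring)
      simp [this]
    · intro hx; exact absurd (mem_univ _) hx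
  have := corr (ι := (ZMod 3 × ZMod 3) ⊕ (ZMod 3 × ZMod 3))
    (Sum.elim (fun i => star (a i.1) * a i.2) (fun i => star (b i.1) * b i.2))
    (Sum.elim (fun i => f i.2 - f i.1) (fun i => g i.2 - g i.1))
    (Sum.elim (fun i => i.2 - i.1) (fun i => i.2 - i.1)) c
    (fun m k => by
      rw [Fintype.sum_sum_type]
      simp only [Sum.elim_inl, Sum.elim_inr]
      rw [← hexp a f m k, ← hexp b g m k]
      exact h m k) t 1 (by simp)
  rw [Fintype.sum_sum_type] at this
  rw [← hsel a f, ← hsel b g]
  exact this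

theorem zmod3_dich (d0 d1 d2 : ZMod 3) (h : d0 + d1 + d2 = 0) :
    (d0 = d1 ∧ d1 = d2) ∨ (d0 = 0 ∧ d1 = 1 ∧ d2 = 2) ∨ (d0 = 0 ∧ d1 = 2 ∧ d2 = 1) ∨
    (d0 = 1 ∧ d1 = 0 ∧ d2 = 2) ∨ (d0 = 1 ∧ d1 = 2 ∧ d2 = 0) ∨ (d0 = 2 ∧ d1 = 0 ∧ d2 = 1) ∨
    (d0 = 2 ∧ d1 = 1 ∧ d2 = 0) := by
  rcases zmod3_cases d0 with rfl | rfl | rfl <;> rcases zmod3_cases d1 with rfl | rfl | rfl <;>
  rcases zmod3_cases d2 with rfl | rfl | rfl <;> revert h <;> decide

/-- Distribution of a triple over the values of its differences. -/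
theorem dist_lemma (d0 d1 d2 : ZMod 3) (h : d0 + d1 + d2 = 0) (x0 x1 x2 : ℂ)
    (hx : x0 * x1 * x2 = 1) :
    ((d0 = d1 ∧ d1 = d2) ∧ ∃ t : ZMod 3, (if d0 = t then x0 else 0) + (if d1 = t then x1 else 0) +
      (if d2 = t then x2 else 0) = 0) ∨
    ((if d0 = 0 then x0 else 0) + (if d1 = 0 then x1 else 0) + (if d2 = 0 then x2 else 0)) *
    ((if d0 = 1 then x0 else 0) + (if d1 = 1 then x1 else 0) + (if d2 = 1 then x2 else 0)) *
    ((if d0 = 2 then x0 else 0) + (if d1 = 2 then x1 else 0) + (if d2 = 2 then x2 else 0)) = 1 := by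
  have z01 : ¬ ((0 : ZMod 3) = 1) := by decide
  have z02 : ¬ ((0 : ZMod 3) = 2) := by decide
  have z10 : ¬ ((1 : ZMod 3) = 0) := by decide
  have z12 : ¬ ((1 : ZMod 3) = 2) := by decide
  have z20 : ¬ ((2 : ZMod 3) = 0) := by decide
  have z21 : ¬ ((2 : ZMod 3) = 1) := by decide
  rcases zmod3_dich d0 d1 d2 h with hd | hd | hd | hd | hd | hd | hd
  · left
    obtain ⟨rfl, rfl⟩ := hd
    refine ⟨⟨rfl, rfl⟩, d0 + 1, ?_⟩
    have : ¬ (d0 = d0 + 1) := by
      intro e
      have : (1 : ZMod 3) = 0 := by linear_combination -e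
      exact z10 this
    simp only [this, if_false, add_zero]
  all_goals
    right
    obtain ⟨rfl, rfl, rfl⟩ := hd
    simp only [z01, z02, z10, z12, z20, z21, if_true, if_false, add_zero, zero_add]
    linear_combination hx

/-- Slopes are constant along the orbits. -/
theorem slopes {a b : ZMod 3 → ℂ} {f g : ZMod 3 → ZMod 3}
    (ha : ∀ j, star (a j) * a j = 1) (hb : ∀ j, star (b j) * b j = 1)
    (h : ∀ t, ∑ i, (if f (i + 1) - f i = t then star (a i) * a (i + 1) else 0) +
      ∑ i, (if g (i + 1) - g i = t then star (b i) * b (i + 1) else 0) = 0) :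
    (∃ p t, ∀ j, f j = p + t * j) ∧ (∃ q t', ∀ j, g j = q + t' * j) := by
  have hx : ∀ (a : ZMod 3 → ℂ), (∀ j, star (a j) * a j = 1) →
      (star (a 0) * a 1) * (star (a 1) * a 2) * (star (a 2) * a 0) = 1 := by
    intro a ha
    linear_combination (star (a 1) * a 1 * (star (a 2) * a 2)) * ha 0 + (star (a 2) * a 2) * ha 1
      + ha 2
  have hxa := hx a ha
  have hxb := hx b hb
  have t0 := h 0
  have t1 := h 1
  have t2 := h 2
  have a1 : (1 : ZMod 3) + 1 = 2 := rfl
  have a2 : (2 : ZMod 3) + 1 = 0 := rfl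
  have hall : ∀ t, ((if f 1 - f 0 = t then star (a 0) * a 1 else 0) +
      (if f 2 - f 1 = t then star (a 1) * a 2 else 0) +
      (if f 0 - f 2 = t then star (a 2) * a 0 else 0)) +
      ((if g 1 - g 0 = t then star (b 0) * b 1 else 0) +
      (if g 2 - g 1 = t then star (b 1) * b 2 else 0) +
      (if g 0 - g 2 = t then star (b 2) * b 0 else 0)) = 0 := by
    intro t
    have := h t
    simpa only [sum_zmod3, zero_add, a1, a2] using this
  have hconst : ∀ f : ZMod 3 → ZMod 3, (f 1 - f 0 = f 2 - f 1) → ∃ p t, ∀ j, f j = p + t * j := by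
    intro f h1
    refine ⟨f 0, f 1 - f 0, fun j => ?_⟩
    rcases zmod3_cases j with rfl | rfl | rfl
    · ring
    · ring
    · rw [show f 0 + (f 1 - f 0) * 2 = f 1 + (f 1 - f 0) by ring, h1]; ring
  have df := dist_lemma (f 1 - f 0) (f 2 - f 1) (f 0 - f 2) (by ring) _ _ _ hxa
  have dg := dist_lemma (g 1 - g 0) (g 2 - g 1) (g 0 - g 2) (by ring) _ _ _ hxb
  have k0 := eq_neg_of_add_eq_zero_left (hall 0)
  have k1 := eq_neg_of_add_eq_zero_left (hall 1)
  have k2 := eq_neg_of_add_eq_zero_left (hall 2)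
  rcases df with ⟨df, t, ht⟩ | df <;> rcases dg with ⟨dg, t', ht'⟩ | dg
  · exact ⟨hconst f df.1, hconst g dg.1⟩
  · exfalso
    have e := hall t
    rw [ht, zero_add] at e
    rcases zmod3_cases t with rfl | rfl | rfl <;> rw [e] at dg <;> simp at dg
  · exfalso
    have e := hall t'
    rw [ht', add_zero] at e
    rcases zmod3_cases t' with rfl | rfl | rfl <;> rw [e] at df <;> simp at df
  · exfalso
    rw [k0, k1, k2] at df
    have : (1 : ℂ) = -1 := by linear_combination (-1 : ℂ) * df - dg
    norm_num at this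

theorem sq_one {t : ZMod 3} (ht : t ≠ 0) : t * t = 1 := by
  revert t; decide

theorem imag_sq {V W : ℂ} (hV : V + star V = 0) (hW : W + star W = 0)
    (h : star V * V = star W * W) : V * V = W * W := by
  linear_combination V * hV - W * hW - h

theorem three_sum_geom {a : ZMod 3 → ℂ} {m : ZMod 3} (h : ∀ j, a (j + 1) = chi m * a j) :
    ∑ j, a j * chi (-m * j) = 3 * a 0 := by
  have h0 := h 0
  have h1 := h 1
  rw [zero_add] at h0
  rw [show (1 : ZMod 3) + 1 = 2 from rfl] at h1
  rw [sum_zmod3, mul_zero, chi_zero, mul_one, h1, h0, show -m * 2 = -(m + m) by ring,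
    show -m * 1 = -m by ring, chi_neg, chi_neg, chi_add, star_mul']
  linear_combination (a 0 * (star (chi m) * chi m + 2)) * chi_star_mul m

/-- Neither half can have a vanishing Fourier coefficient. -/
theorem nonvanish {a b : ZMod 3 → ℂ} (ha : ∀ j, star (a j) * a j = 1)
    (h : ∀ k, star (∑ j, a j * chi (k * j)) * (∑ j, a j * chi (k * j)) +
      star (∑ j, b j * chi (k * j)) * (∑ j, b j * chi (k * j)) = 6) (n : ZMod 3) :
    ∑ j, a j * chi (n * j) ≠ 0 := by
  intro h0
  have h0' : ∑ j, a j * chi (j * n) = 0 := by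
    rw [← h0]; exact sum_congr rfl fun j _ => by rw [mul_comm j n]
  obtain ⟨m, hm⟩ := geom ha h0'
  refine star_pos_aux ?_ (h (-m))
  rw [three_sum_geom hm, star_mul', show star (3 : ℂ) = 3 from Complex.conj_ofNat 3]
  linear_combination (9 : ℂ) * ha 0

theorem flat {a : ZMod 3 → ℂ} (ha : ∀ j, star (a j) * a j = 1)
    (hx : star (a 0) * a 1 + star (a 1) * a 2 + star (a 2) * a 0 = 0) (n : ZMod 3) :
    star (∑ j, a j * chi (n * j)) * (∑ j, a j * chi (n * j)) = 3 := by
  have hx' := congrArg star hx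
  simp only [star_add, star_mul', star_star, star_zero] at hx'
  have hc : star (chi n) = chi n * chi n := by rw [← chi_neg, ← chi_add]; congr 1; ring_nf; rw [show (2 : ZMod 3) = -1 from rfl]; ring
  have h3 := chi_three n
  rw [sum_zmod3, mul_zero, chi_zero, mul_one, mul_one, show n * 2 = n + n by ring, chi_add]
  simp only [star_add, star_mul', hc]
  linear_combination ha 0 + ha 1 + ha 2 + chi n * hx + (chi n * chi n) * hx'
    + (star (a 1) * a 1 + star (a 2) * a 2 * (chi n * chi n * chi n + 1)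
      + star (a 1) * a 2 * chi n + star (a 2) * a 1 * (chi n * chi n) + star (a 2) * a 0 * chi n) * h3

/-- The antiparallel case is impossible. -/
theorem anti_false {a b : ZMod 3 → ℂ} (ha : ∀ j, star (a j) * a j = 1)
    (hb : ∀ j, star (b j) * b j = 1) {p q t : ZMod 3} (ht : t ≠ 0) (ρ : ZMod 3 → ℂ)
    (hρ : ∀ k, star (ρ k) * ρ k = 1)
    (hxa : star (a 0) * a 1 + star (a 1) * a 2 + star (a 2) * a 0 = 0)
    (hxb : star (b 0) * b 1 + star (b 1) * b 2 + star (b 2) * b 0 = 0)
    (h2 : ∀ m k,
      star (∑ j, a j * chi (m * (p + t * j) + k * j)) *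
        (ρ k * (∑ j, b j * chi (m * (q - t * j) + k * j))) +
      (∑ j, a j * chi (m * (p + t * j) + k * j)) *
        star (ρ k * (∑ j, b j * chi (m * (q - t * j) + k * j))) = 0) : False := by
  obtain ⟨P, hP⟩ : ∃ P : ZMod 3 → ℂ, ∀ n, P n = ∑ j, a j * chi (n * j) := ⟨_, fun _ => rfl⟩
  obtain ⟨Q, hQ⟩ : ∃ Q : ZMod 3 → ℂ, ∀ n, Q n = ∑ j, b j * chi (n * j) := ⟨_, fun _ => rfl⟩
  have hPP : ∀ m k, ∑ j, a j * chi (m * (p + t * j) + k * j) = chi (m * p) * P (k + m * t) := by
    intro m k
    rw [hP, mul_sum]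
    refine sum_congr rfl fun j _ => ?_
    have e : chi (m * (p + t * j) + k * j) = chi (m * p) * chi ((k + m * t) * j) := by
      rw [← chi_add]; congr 1; ring
    rw [e]; ring
  have hQQ : ∀ m k, ∑ j, b j * chi (m * (q - t * j) + k * j) = chi (m * q) * Q (k - m * t) := by
    intro m k
    rw [hQ, mul_sum]
    refine sum_congr rfl fun j _ => ?_
    have e : chi (m * (q - t * j) + k * j) = chi (m * q) * chi ((k - m * t) * j) := by
      rw [← chi_add]; congr 1; ring
    rw [e]; ring
  have fP : ∀ n, star (P n) * P n = 3 := fun n => by rw [hP]; exact flat ha hxa n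
  have fQ : ∀ n, star (Q n) * Q n = 3 := fun n => by rw [hQ]; exact flat hb hxb n
  -- imaginary numbers of modulus 3
  have hW : ∀ m k, (star (P (k + m * t)) * Q (k - m * t) * chi (m * (q - p))) *
      (star (P (k + m * t)) * Q (k - m * t) * chi (m * (q - p))) = (star (P k) * Q k) *
        (star (P k) * Q k) := by
    intro m k
    have e1 := h2 m k
    have e0 := h2 0 k
    rw [hPP, hQQ] at e1 e0
    rw [zero_mul, zero_mul, zero_mul, chi_zero, add_zero, sub_zero, one_mul, one_mul] at e0
    have hc : chi (m * (q - p)) = star (chi (m * p)) * chi (m * q) := by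
      rw [← chi_neg, ← chi_add]; congr 1; ring
    have := imag_sq (V := star (chi (m * p) * P (k + m * t)) * (ρ k * (chi (m * q) * Q (k - m * t))))
      (W := star (P k) * (ρ k * Q k)) (by
        simp only [star_mul', star_star] at e1 ⊢
        linear_combination e1) (by
        simp only [star_mul', star_star] at e0 ⊢
        linear_combination e0) (by
        simp only [star_mul', star_star]
        have c1 := chi_star_mul (m * p)
        have c2 := chi_star_mul (m * q)
        have g1 := fP (k + m * t)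
        have g2 := fQ (k - m * t)
        have g3 := fP k
        have g4 := fQ k
        have g5 := hρ k
        linear_combination
          (star (P (k + m * t)) * P (k + m * t) * (star (ρ k) * ρ k) *
            (star (chi (m * q)) * chi (m * q)) * (star (Q (k - m * t)) * Q (k - m * t))) * c1
          + (star (P (k + m * t)) * P (k + m * t) * (star (ρ k) * ρ k) *
             (star (Q (k - m * t)) * Q (k - m * t))) * c2
          + ((star (ρ k) * ρ k) * (star (Q (k - m * t)) * Q (k - m * t))) * g1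
          + (3 * (star (ρ k) * ρ k)) * g2
          - ((star (ρ k) * ρ k) * (star (Q k) * Q k)) * g3 - (3 * (star (ρ k) * ρ k)) * g4)
    rw [hc]
    have g5 := hρ k
    have c1 : ρ k * star (ρ k) = 1 := by rw [mul_comm]; exact g5
    simp only [star_mul'] at this
    linear_combination (star (ρ k) * star (ρ k)) * this
      - ((star (P (k + m * t)) * Q (k - m * t) * (star (chi (m * p)) * chi (m * q))) *
      (star (P (k + m * t)) * Q (k - m * t) * (star (chi (m * p)) * chi (m * q))) -
      (star (P k) * Q k) * (star (P k) * Q k)) * (star (ρ k) * ρ k + 1) * g5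
  have nQ : ∀ n, Q n ≠ 0 := fun n h0 => by
    have := fQ n; rw [h0, mul_zero] at this; norm_num at this
  have nP : ∀ n, P n ≠ 0 := fun n h0 => by
    have := fP n; rw [h0, mul_zero] at this; norm_num at this
  have h3t : ∀ k, k + 2 * t = k - t := fun k => by
    have : (2 : ZMod 3) = -1 := rfl
    rw [this]; ring
  have h3t' : ∀ k, k - 2 * t = k + t := fun k => by
    have : (2 : ZMod 3) = -1 := rfl
    rw [this]; ring
  have E1 : ∀ k, (Q k * Q k) * (P (k + t) * P (k + t)) =
      (P k * P k) * (Q (k - t) * Q (k - t)) * (chi (q - p) * chi (q - p)) := by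
    intro k
    have e := hW 1 k
    rw [one_mul, one_mul] at e
    have g1 := fP k
    have g2 := fP (k + t)
    have : (9 : ℂ) ≠ 0 := by norm_num
    apply mul_left_cancel₀ this
    linear_combination (-(P k * P k) * (P (k + t) * P (k + t))) * e
      - ((star (P k) * P k + 3) * (Q k * Q k) * (P (k + t) * P (k + t))) * g1
      + ((star (P (k + t)) * P (k + t) + 3) * (P k * P k) * (Q (k - t) * Q (k - t)) *
        (chi (q - p) * chi (q - p))) * g2
  have E2 : ∀ k, (Q k * Q k) * (P (k - t) * P (k - t)) =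
      (P k * P k) * (Q (k + t) * Q (k + t)) * chi (q - p) := by
    intro k
    have e := hW 2 k
    rw [h3t, h3t', show 2 * (q - p) = (q - p) + (q - p) by ring, chi_add] at e
    have g1 := fP k
    have g2 := fP (k - t)
    have c3 := chi_three (q - p)
    have : (9 : ℂ) ≠ 0 := by norm_num
    apply mul_left_cancel₀ this
    linear_combination (-(P k * P k) * (P (k - t) * P (k - t))) * e
      - ((star (P k) * P k + 3) * (Q k * Q k) * (P (k - t) * P (k - t))) * g1
      + ((star (P (k - t)) * P (k - t) + 3) * (P k * P k) * (Q (k + t) * Q (k + t)) *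
        (chi (q - p) * chi (q - p) * chi (q - p) * chi (q - p))) * g2
      + (9 * (P k * P k) * (Q (k + t) * Q (k + t)) * chi (q - p)) * c3
  have hA : ∀ k, (P (k + t) * P (k + t)) * (P (k + t) * P (k + t)) =
      (P k * P k) * (P (k - t) * P (k - t)) := by
    intro k
    have e1 := E1 k
    have e2 := E2 (k - t)
    rw [show k - t - t = k - 2 * t by ring, h3t', show k - t + t = k by ring] at e2
    have c3 := chi_three (q - p)
    apply mul_left_cancel₀ (mul_ne_zero (nQ k) (nQ k))
    linear_combination (P (k + t) * P (k + t)) * e1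
      + (P k * P k * (chi (q - p) * chi (q - p))) * e2
      + (P k * P k * (P (k - t) * P (k - t)) * (Q k * Q k)) * c3
  have hA0 := hA 0
  have hA1 := hA t
  rw [zero_add, zero_sub] at hA0
  rw [show t + t = 0 + 2 * t by ring, h3t, zero_sub, sub_self] at hA1
  -- ratio is a cube root of unity
  obtain ⟨c, hc⟩ : ∃ c : ZMod 3, P t * P t = chi c * (P 0 * P 0) := by
    have n0 : P 0 * P 0 ≠ 0 := mul_ne_zero (nP 0) (nP 0)
    obtain ⟨c, hc⟩ := exists_chi (z := P t * P t / (P 0 * P 0)) (by
      have nt := nP t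
      have n0' := nP 0
      field_simp
      have n1 : P t ≠ 0 := nt
      apply mul_left_cancel₀ n1
      apply mul_left_cancel₀ n1
      have e : (P t * P t) * ((P t * P t) * (P t * P t) * (P t * P t)) =
          (P t * P t) * ((P 0 * P 0) * (P 0 * P 0) * (P 0 * P 0)) := by
        linear_combination ((P t * P t) * (P t * P t) + (P 0 * P 0) * (P (-t) * P (-t))) * hA0
          + (P 0 * P 0) * (P 0 * P 0) * hA1
      linear_combination e)
    exact ⟨c, (div_eq_iff n0).1 hc⟩
  have hc2 : P (-t) * P (-t) = chi c * chi c * (P 0 * P 0) := by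
    have n0 : P 0 * P 0 ≠ 0 := mul_ne_zero (nP 0) (nP 0)
    apply mul_left_cancel₀ n0
    rw [← hA0, hc]; ring
  have c3 := chi_three c
  have s1 : P t * chi c = P 0 ∨ P t * chi c = -P 0 := by
    have : (P t * chi c - P 0) * (P t * chi c + P 0) = 0 := by
      linear_combination (chi c * chi c) * hc + (P 0 * P 0) * c3
    rcases mul_eq_zero.1 this with h | h
    · left; linear_combination h
    · right; linear_combination h
  have s2 : P (-t) * (chi c * chi c) = P 0 ∨ P (-t) * (chi c * chi c) = -P 0 := by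
    have : (P (-t) * (chi c * chi c) - P 0) * (P (-t) * (chi c * chi c) + P 0) = 0 := by
      linear_combination (chi c * chi c * chi c * chi c) * hc2
        + (P 0 * P 0) * (chi c * chi c * chi c + 1) * c3
    rcases mul_eq_zero.1 this with h | h
    · left; linear_combination h
    · right; linear_combination h
  have hsum : P 0 + P t * chi c + P (-t) * (chi c * chi c) = 3 * a (-c * t) := by
    have e : ∀ j, (a j * chi (0 * j)) + (a j * chi (t * j)) * chi c +
        (a j * chi (-t * j)) * (chi c * chi c) = a j * (if c + t * j = 0 then 3 else 0) := by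
      intro j
      rw [← sum_chi, sum_zmod3, zero_mul, zero_mul, one_mul, chi_zero, chi_add,
        show 2 * (c + t * j) = (c + c) + -t * j by
          have : (2 : ZMod 3) = -1 := rfl
          rw [show (c + c : ZMod 3) = 2 * c by ring, this]; ring, chi_add, chi_add]
      ring
    rw [hP, hP, hP, sum_mul, sum_mul, ← sum_add_distrib, ← sum_add_distrib]
    simp only [e]
    rw [sum_eq_single (-c * t)]
    · rw [if_pos, mul_comm]
      have : t * t = 1 := sq_one ht
      linear_combination (-c) * this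
    · intro j _ hj
      rw [if_neg, mul_zero]
      intro e0
      apply hj
      have : t * t = 1 := sq_one ht
      linear_combination t * e0 - j * this
    · intro hx; exact absurd (mem_univ _) hx
  have hfin : star (P 0 + P t * chi c + P (-t) * (chi c * chi c)) *
      (P 0 + P t * chi c + P (-t) * (chi c * chi c)) = 9 := by
    rw [hsum, star_mul', show star (3 : ℂ) = 3 from Complex.conj_ofNat 3]
    linear_combination (9 : ℂ) * ha (-c * t)
  have f0 := fP 0
  rcases s1 with s1 | s1 <;> rcases s2 with s2 | s2 <;> rw [s1, s2] at hfin <;>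
    simp only [star_add, star_neg] at hfin
  · have : (27 : ℂ) = 9 := by linear_combination hfin - 9 * f0
    norm_num at this
  · have : (3 : ℂ) = 9 := by linear_combination hfin - f0
    norm_num at this
  · have : (3 : ℂ) = 9 := by linear_combination hfin - f0
    norm_num at this
  · have : (3 : ℂ) = 9 := by linear_combination hfin - f0
    norm_num at this

theorem zmod3_neg : ∀ t t' : ZMod 3, t ≠ 0 → t' ≠ 0 → t ≠ t' → t' = -t := by decide

/-- A label with fibres of size two is not constant on an orbit. -/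
theorem slope_ne {M : Fin 6 → ZMod 3} (hM : ∀ k, (univ.filter fun x => M x = k).card = 2)
    {r : ZMod 3 → Fin 6} (hr : Function.Injective r) {p t : ZMod 3}
    (h : ∀ j, M (r j) = p + t * j) : t ≠ 0 := by
  rintro rfl
  have h1 : (univ.image r) ⊆ univ.filter fun x => M x = p := by
    intro y hy
    rw [mem_image] at hy
    obtain ⟨j, _, rfl⟩ := hy
    rw [mem_filter]
    exact ⟨mem_univ _, by rw [h j]; ring⟩
  have h2 := card_le_card h1
  rw [hM p, card_image_of_injective _ hr, card_univ, ZMod.card] at h2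
  omega

theorem InD.injr {H : M6} {L : Fin 6 → ZMod 3} {r s : ZMod 3 → Fin 6} {u v : ZMod 3 → ℂ}
    {α ρ : Fin 6 → ℂ} (D : InD H L r s u v α ρ) : Function.Injective r := fun a b hab =>
  Sum.inl_injective (D.bij.1 (a₁ := Sum.inl a) (a₂ := Sum.inl b) hab)

theorem InD.injs {H : M6} {L : Fin 6 → ZMod 3} {r s : ZMod 3 → Fin 6} {u v : ZMod 3 → ℂ}
    {α ρ : Fin 6 → ℂ} (D : InD H L r s u v α ρ) : Function.Injective s := fun a b hab =>
  Sum.inr_injective (D.bij.1 (a₁ := Sum.inr a) (a₂ := Sum.inr b) hab)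

/-- The parallel case: the label reverses. -/
theorem par_rho {a b : ZMod 3 → ℂ} (ha : ∀ j, star (a j) * a j = 1)
    (hb : ∀ j, star (b j) * b j = 1) {p q t : ZMod 3} (ρ : Fin 6 → ℂ) (L : Fin 6 → ZMod 3)
    (hρ : ∀ k, star (ρ k) * ρ k = 1)
    (h1 : ∀ k, star (∑ j, a j * chi (k * j)) * (∑ j, a j * chi (k * j)) +
      star (∑ j, b j * chi (k * j)) * (∑ j, b j * chi (k * j)) = 6)
    (h2 : ∀ m x,
      star (∑ j, a j * chi (m * (p + t * j) + L x * j)) *
        (ρ x * (∑ j, b j * chi (m * (q + t * j) + L x * j))) +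
      (∑ j, a j * chi (m * (p + t * j) + L x * j)) *
        star (ρ x * (∑ j, b j * chi (m * (q + t * j) + L x * j))) = 0) (x x' : Fin 6)
    (hx : L x' = L x - t) : ρ x' * ρ x' = ρ x * ρ x * (chi (p - q) * chi (p - q)) := by
  obtain ⟨P, hP⟩ : ∃ P : ZMod 3 → ℂ, ∀ n, P n = ∑ j, a j * chi (n * j) := ⟨_, fun _ => rfl⟩
  obtain ⟨Q, hQ⟩ : ∃ Q : ZMod 3 → ℂ, ∀ n, Q n = ∑ j, b j * chi (n * j) := ⟨_, fun _ => rfl⟩
  have hPP : ∀ m k p, ∑ j, a j * chi (m * (p + t * j) + k * j) = chi (m * p) * P (k + m * t) := by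
    intro m k p
    rw [hP, mul_sum]
    refine sum_congr rfl fun j _ => ?_
    have e : chi (m * (p + t * j) + k * j) = chi (m * p) * chi ((k + m * t) * j) := by
      rw [← chi_add]; congr 1; ring
    rw [e]; ring
  have hQQ : ∀ m k p, ∑ j, b j * chi (m * (p + t * j) + k * j) = chi (m * p) * Q (k + m * t) := by
    intro m k p
    rw [hQ, mul_sum]
    refine sum_congr rfl fun j _ => ?_
    have e : chi (m * (p + t * j) + k * j) = chi (m * p) * chi ((k + m * t) * j) := by
      rw [← chi_add]; congr 1; ring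
    rw [e]; ring
  have nP : P (L x) ≠ 0 := by rw [hP]; exact nonvanish ha h1 (L x)
  have nQ : Q (L x) ≠ 0 := by
    rw [hQ]
    exact nonvanish hb (fun k => by rw [add_comm]; exact h1 k) (L x)
  have e0 := h2 0 x
  have e1 := h2 1 x'
  rw [hPP, hQQ] at e0 e1
  rw [zero_mul, zero_mul, zero_mul, chi_zero, add_zero, one_mul, one_mul] at e0
  rw [one_mul, one_mul, one_mul, hx, show L x - t + t = L x by ring] at e1
  have hV := imag_sq (V := star (P (L x)) * (ρ x * Q (L x)))
    (W := star (chi p * P (L x)) * (ρ x' * (chi q * Q (L x)))) (by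
      simp only [star_mul', star_star] at e0 ⊢
      linear_combination e0) (by
      simp only [star_mul', star_star] at e1 ⊢
      linear_combination e1) (by
      simp only [star_mul', star_star]
      have c1 := chi_star_mul p
      have c2 := chi_star_mul q
      linear_combination (P (L x) * star (P (L x)) * star (Q (L x)) * Q (L x)) * hρ x
        - (P (L x) * star (P (L x)) * star (Q (L x)) * Q (L x) * (star (chi q) * chi q) *
            (star (ρ x') * ρ x')) * c1
        - (P (L x) * star (P (L x)) * star (Q (L x)) * Q (L x) *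
            (star (ρ x') * ρ x')) * c2
        - (P (L x) * star (P (L x)) * star (Q (L x)) * Q (L x)) * hρ x')
  have hne : star (P (L x)) * Q (L x) ≠ 0 := mul_ne_zero (star_ne_zero.2 nP) nQ
  apply mul_left_cancel₀ (mul_ne_zero hne hne)
  have hc : chi (p - q) = chi p * star (chi q) := by
    rw [← chi_neg, ← chi_add]; congr 1; ring
  rw [hc]
  simp only [star_mul'] at hV
  have c1 := chi_star_mul p
  have c2 := chi_star_mul q
  linear_combination (-(chi p * star (chi q)) * (chi p * star (chi q))) * hV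
    + (-(star (P (L x)) * Q (L x)) * (star (P (L x)) * Q (L x)) * (ρ x' * ρ x') *
      (star (chi p) * chi p + 1) * (star (chi q) * chi q) * (star (chi q) * chi q)) * c1
    + (-(star (P (L x)) * Q (L x)) * (star (P (L x)) * Q (L x)) * (ρ x' * ρ x') *
      (star (chi q) * chi q + 1)) * c2

/-- (IO) `X → Y → Z` implies `Y → X` (with the label of `Y → Z`). -/
theorem io {H G : M6} (hH : Had H) (hG : Had G) (hHG : Had (H * G)) {L M : Fin 6 → ZMod 3}
    (h : HArrow H L) (h' : HArrow G M) : HArrow Hᴴ M := by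
  obtain ⟨r, s, u, v, α, ρ, D⟩ := h.inD hH
  obtain ⟨c0, hc0⟩ : ∃ c0 : ℂ, c0 = 6 * star (u 0 * G (r 0) 0) := ⟨_, rfl⟩
  have hc6 : star c0 * c0 = 6 := by
    have e1 := hG.mod (r 0) 0
    have e2 := D.hu 0
    rw [hc0, star_mul', star_star, star_mul', show star (6 : ℂ) = 6 from Complex.conj_ofNat 6]
    linear_combination (36 * star (G (r 0) 0) * G (r 0) 0) * e2 + (36 : ℂ) * e1
  obtain ⟨a, ha⟩ : ∃ a : ZMod 3 → ℂ, ∀ j, a j = u j * (G (r j) 0 * c0) := ⟨_, fun _ => rfl⟩
  obtain ⟨b, hb⟩ : ∃ b : ZMod 3 → ℂ, ∀ j, b j = v j * (G (s j) 0 * c0) := ⟨_, fun _ => rfl⟩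
  have ha1 : ∀ j, star (a j) * a j = 1 := by
    intro j
    rw [ha, star_mul', star_mul']
    have e1 := hG.mod (r j) 0
    have e2 := D.hu j
    linear_combination (star (G (r j) 0) * G (r j) 0 * (star c0 * c0)) * e2 +
      (star c0 * c0) * e1 + (1 / 6 : ℂ) * hc6
  have hb1 : ∀ j, star (b j) * b j = 1 := by
    intro j
    rw [hb, star_mul', star_mul']
    have e1 := hG.mod (s j) 0
    have e2 := D.hv j
    linear_combination (star (G (s j) 0) * G (s j) 0 * (star c0 * c0)) * e2 +
      (star c0 * c0) * e1 + (1 / 6 : ℂ) * hc6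
  have hrel : ∀ m x,
      star (∑ j, a j * chi (m * M (r j) + L x * j)) * (∑ j, a j * chi (m * M (r j) + L x * j)) +
      star (∑ j, b j * chi (m * M (s j) + L x * j)) * (∑ j, b j * chi (m * M (s j) + L x * j)) = 6 ∧
      star (∑ j, a j * chi (m * M (r j) + L x * j)) *
        (ρ x * (∑ j, b j * chi (m * M (s j) + L x * j))) +
      (∑ j, a j * chi (m * M (r j) + L x * j)) *
        star (ρ x * (∑ j, b j * chi (m * M (s j) + L x * j))) = 0 := by
    intro m x
    obtain ⟨w, z', hz', hw⟩ := h'.pow hG m 0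
    have hz : ∀ x, star (∑ y, H x y * (chi (m * M y) * G y 0 * c0)) *
        (∑ y, H x y * (chi (m * M y) * G y 0 * c0)) = 1 := by
      intro x
      have e : ∑ y, H x y * (chi (m * M y) * G y 0 * c0) = z' * c0 * (H * G) x w := by
        rw [Matrix.mul_apply, mul_sum]
        refine sum_congr rfl fun y _ => ?_
        rw [hw y]; ring
      rw [e, star_mul', star_mul']
      linear_combination (star c0 * c0 * (star ((H * G) x w) * (H * G) x w)) * hz' +
        (star ((H * G) x w) * (H * G) x w) * hc6 + (6 : ℂ) * hHG.mod x w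
    have := D.pq _ 1 hz x
    have ea : ∑ j, u j * (chi (m * M (r j)) * G (r j) 0 * c0) * chi (j * L x) =
        ∑ j, a j * chi (m * M (r j) + L x * j) := by
      refine sum_congr rfl fun j _ => ?_
      rw [ha, chi_add, mul_comm (L x) j]; ring
    have eb : ∑ j, v j * (chi (m * M (s j)) * G (s j) 0 * c0) * chi (j * L x) =
        ∑ j, b j * chi (m * M (s j) + L x * j) := by
      refine sum_congr rfl fun j _ => ?_
      rw [hb, chi_add, mul_comm (L x) j]; ring
    rw [ea, eb, mul_one] at this
    exact this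
  have hrelk : ∀ m k,
      star (∑ j, a j * chi (m * M (r j) + k * j)) * (∑ j, a j * chi (m * M (r j) + k * j)) +
      star (∑ j, b j * chi (m * M (s j) + k * j)) * (∑ j, b j * chi (m * M (s j) + k * j)) = 6 := by
    intro m k
    obtain ⟨x, rfl⟩ := D.exists_class k
    exact (hrel m x).1
  have hc2 := corr2 (f := fun j => M (r j)) (g := fun j => M (s j)) hrelk
  obtain ⟨⟨p, t, hp⟩, ⟨q, t', hq⟩⟩ := slopes ha1 hb1 hc2
  have ht := slope_ne h'.1 D.injr hp
  have ht' := slope_ne h'.1 D.injs hq
  by_cases htt : t = t'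
  · subst htt
    refine D.back M h'.1 p q t hp hq ?_
    refine par_rho ha1 hb1 ρ L D.hρ ?_ ?_
    · intro k
      have := hrelk 0 k
      simpa only [zero_mul, zero_add] using this
    · intro m x
      have := (hrel m x).2
      simpa only [hp, hq] using this
  · exfalso
    have htt' : t' = -t := zmod3_neg t t' ht ht' htt
    have hxa : star (a 0) * a 1 + star (a 1) * a 2 + star (a 2) * a 0 = 0 := by
      have := hc2 t
      have e1 : ∀ i : ZMod 3, M (r (i + 1)) - M (r i) = t := fun i => by rw [hp, hp]; ring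
      have e2 : ∀ i : ZMod 3, ¬ (M (s (i + 1)) - M (s i) = t) := fun i => by
        rw [hq, hq, show q + t' * (i + 1) - (q + t' * i) = t' by ring]; exact fun e => htt e.symm
      simp only [e1, e2, if_true, if_false, sum_const_zero, add_zero] at this
      rw [sum_zmod3, zero_add, show (1 : ZMod 3) + 1 = 2 from rfl,
        show (2 : ZMod 3) + 1 = 0 from rfl] at this
      exact this
    have hxb : star (b 0) * b 1 + star (b 1) * b 2 + star (b 2) * b 0 = 0 := by
      have := hc2 t'
      have e1 : ∀ i : ZMod 3, ¬ (M (r (i + 1)) - M (r i) = t') := fun i => by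
        rw [hp, hp, show p + t * (i + 1) - (p + t * i) = t by ring]; exact htt
      have e2 : ∀ i : ZMod 3, M (s (i + 1)) - M (s i) = t' := fun i => by rw [hq, hq]; ring
      simp only [e1, e2, if_true, if_false, sum_const_zero, zero_add] at this
      rw [sum_zmod3, zero_add, show (1 : ZMod 3) + 1 = 2 from rfl,
        show (2 : ZMod 3) + 1 = 0 from rfl] at this
      exact this
    choose ξ hξ using D.exists_class
    refine anti_false ha1 hb1 (p := p) (q := q) ht (fun k => ρ (ξ k)) (fun k => D.hρ _) hxa hxb ?_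
    intro m k
    have := (hrel m (ξ k)).2
    simp only [hp, hq, hξ, htt'] at this
    simpa only [sub_eq_add_neg, neg_mul] using this

end Vale.Agent.P355.H665

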