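import Vale.Agent.P355.H665.FArrow

/-! Two arrows leaving the same basis use the same pairing. -/

namespace Vale.Agent.P355.H665

open Finset Matrix Vale.Agent.P355

theorem zmod3_rel (a b : ZMod 3) : a = b ∨ a = b + 1 ∨ a = b + 2 := by
  revert a b; decide

theorem sum_shift {M : Type*} [AddCommMonoid M] (f : ZMod 3 → M) (u : ZMod 3) :
    ∑ g, f (u + g) = ∑ g, f g :=
  Equiv.sum_comp (Equiv.addLeft u) f

theorem autocorr_aux (F : ZMod 3 → ZMod 3 → ℂ) (c : ℂ)
    (h : ∀ k j, star (∑ u, ∑ v, F u v * chi (k * u + j * v)) *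
      (∑ u, ∑ v, F u v * chi (k * u + j * v)) = c) (k j : ZMod 3) :
    ∑ i : ZMod 3 × ZMod 3, (∑ u, ∑ v, F (u + i.1) (v + i.2) * star (F u v)) *
      chi (k * i.1 + j * i.2) = c := by
  rw [← h k j, Fintype.sum_prod_type]
  have hS : ∀ u v : ZMod 3, ∑ g, ∑ t, F (u + g) (v + t) * chi (k * (u + g) + j * (v + t))
      = ∑ u, ∑ v, F u v * chi (k * u + j * v) := by
    intro u v
    rw [sum_shift (fun g => ∑ t, F g (v + t) * chi (k * g + j * (v + t))) u]
    exact sum_congr rfl fun g _ => sum_shift (fun t => F g t * chi (k * g + j * t)) v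
  calc ∑ g, ∑ t, (∑ u, ∑ v, F (u + g) (v + t) * star (F u v)) * chi (k * g + j * t)
      = ∑ g, ∑ t, ∑ u, ∑ v, (star (F u v * chi (k * u + j * v))) *
          (F (u + g) (v + t) * chi (k * (u + g) + j * (v + t))) := by
        refine sum_congr rfl fun g _ => sum_congr rfl fun t _ => ?_
        rw [sum_mul]
        refine sum_congr rfl fun u _ => ?_
        rw [sum_mul]
        refine sum_congr rfl fun v _ => ?_
        have e : chi (k * (u + g) + j * (v + t)) = chi (k * u + j * v) * chi (k * g + j * t) := by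
          rw [← chi_add]; congr 1; ring
        rw [e, star_mul']
        have := chi_star_mul (k * u + j * v)
        linear_combination (-F (u + g) (v + t) * star (F u v) * chi (k * g + j * t)) * this
    _ = ∑ u, ∑ v, ∑ g, ∑ t, (star (F u v * chi (k * u + j * v))) *
          (F (u + g) (v + t) * chi (k * (u + g) + j * (v + t))) := by
        calc _ = ∑ g, ∑ u, ∑ v, ∑ t, (star (F u v * chi (k * u + j * v))) *
              (F (u + g) (v + t) * chi (k * (u + g) + j * (v + t))) := by
              refine sum_congr rfl fun g _ => ?_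
              rw [sum_comm]
              exact sum_congr rfl fun u _ => sum_comm
          _ = _ := by
              rw [sum_comm]
              exact sum_congr rfl fun u _ => sum_comm
    _ = ∑ u, ∑ v, star (F u v * chi (k * u + j * v)) *
          (∑ u, ∑ v, F u v * chi (k * u + j * v)) := by
        refine sum_congr rfl fun u _ => sum_congr rfl fun v _ => ?_
        rw [← hS u v, mul_sum]
        refine sum_congr rfl fun g _ => ?_
        rw [mul_sum]
    _ = _ := by
        rw [star_sum, sum_mul]
        refine sum_congr rfl fun u _ => ?_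
        rw [star_sum, sum_mul]

theorem autocorr {F : ZMod 3 → ZMod 3 → ℂ} {c : ℂ}
    (h : ∀ k j, star (∑ u, ∑ v, F u v * chi (k * u + j * v)) *
      (∑ u, ∑ v, F u v * chi (k * u + j * v)) = c) {g t : ZMod 3} (hgt : ¬ (g = 0 ∧ t = 0)) :
    ∑ u, ∑ v, F (u + g) (v + t) * star (F u v) = 0 := by
  have := corr (fun i : ZMod 3 × ZMod 3 => ∑ u, ∑ v, F (u + i.1) (v + i.2) * star (F u v))
    Prod.fst Prod.snd c (autocorr_aux F c h) g t hgt
  have e : ∑ i : ZMod 3 × ZMod 3, (if i.1 = g ∧ i.2 = t then
      (∑ u, ∑ v, F (u + i.1) (v + i.2) * star (F u v)) else 0)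
      = ∑ i : ZMod 3 × ZMod 3, (if i = (g, t) then
      (∑ u, ∑ v, F (u + g) (v + t) * star (F u v)) else 0) := by
    refine sum_congr rfl fun i _ => ?_
    obtain ⟨i1, i2⟩ := i
    by_cases h1 : i1 = g ∧ i2 = t
    · obtain ⟨rfl, rfl⟩ := h1
      simp
    · have h2 : ¬ ((i1, i2) = (g, t)) := fun e => h1 ⟨congrArg Prod.fst e, congrArg Prod.snd e⟩
      rw [if_neg h1, if_neg h2]
  rw [e, sum_ite_eq' univ (g, t), if_pos (mem_univ _)] at this
  exact this

theorem autocorr_zero {F : ZMod 3 → ZMod 3 → ℂ} {c : ℂ}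
    (h : ∀ k j, star (∑ u, ∑ v, F u v * chi (k * u + j * v)) *
      (∑ u, ∑ v, F u v * chi (k * u + j * v)) = c) :
    ∑ u, ∑ v, F u v * star (F u v) = c := by
  have h1 := autocorr_aux F c h 0 0
  have h2 : ∀ g t : ZMod 3, ¬ (g = 0 ∧ t = 0) →
      ∑ u, ∑ v, F (u + g) (v + t) * star (F u v) = 0 := fun g t => autocorr h
  obtain ⟨W, hW⟩ : ∃ W : ZMod 3 → ZMod 3 → ℂ, ∀ g t, W g t =
      ∑ u, ∑ v, F (u + g) (v + t) * star (F u v) := ⟨_, fun _ _ => rfl⟩
  rw [Fintype.sum_prod_type] at h1
  simp only [← hW, zero_mul, add_zero, chi_zero, mul_one] at h1 h2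
  rw [sum_zmod3, sum_zmod3, sum_zmod3, sum_zmod3,
    h2 0 1 (by decide), h2 0 2 (by decide), h2 1 0 (by decide), h2 1 1 (by decide),
    h2 1 2 (by decide), h2 2 0 (by decide), h2 2 1 (by decide), h2 2 2 (by decide), hW] at h1
  simpa using h1

/-- Pairings sharing exactly one pair are impossible. -/
theorem core_one {F : ZMod 3 → ZMod 3 → ℂ}
    (h : ∀ k j, star (∑ u, ∑ v, F u v * chi (k * u + j * v)) *
      (∑ u, ∑ v, F u v * chi (k * u + j * v)) = 6)
    (h01 : F 0 1 = 0) (h02 : F 0 2 = 0) (h10 : F 1 0 = 0) (h20 : F 2 0 = 0)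
    (h11 : star (F 1 1) * F 1 1 = 1) (h12 : star (F 1 2) * F 1 2 = 1)
    (h21 : star (F 2 1) * F 2 1 = 1) (h22 : star (F 2 2) * F 2 2 = 1) : False := by
  have e0 := autocorr_zero h
  have e11 := autocorr h (g := 1) (t := 1) (by decide)
  have e12 := autocorr h (g := 1) (t := 2) (by decide)
  have e10 := autocorr h (g := 1) (t := 0) (by decide)
  have a1 : (1 : ZMod 3) + 1 = 2 := rfl
  have a2 : (2 : ZMod 3) + 1 = 0 := rfl
  have a3 : (1 : ZMod 3) + 2 = 0 := rfl
  have a4 : (2 : ZMod 3) + 2 = 1 := rfl
  simp only [sum_zmod3, zero_add, add_zero, a1, a2, a3, a4, h01, h02, h10, h20, star_zero,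
    mul_zero, zero_mul] at e0 e11 e12 e10
  generalize F 0 0 = z at *
  generalize F 1 1 = p at *
  generalize F 1 2 = r at *
  generalize F 2 1 = s at *
  generalize F 2 2 = q at *
  -- |z|^2 = 2
  have hz : star z * z = 2 := by linear_combination e0 - h11 - h12 - h21 - h22
  -- star versions
  have e11' := congrArg star e11
  have e12' := congrArg star e12
  have e10' := congrArg star e10
  simp only [star_add, star_mul', star_star, star_zero] at e11' e12' e10'
  -- Re (p q (star z)^2) = -3/2
  have k1 : p * star z * (q * star z) + star p * z * (star q * z) = -3 := by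
    have hh : star (p * star z + z * star q) * (p * star z + z * star q) = star (q * star p) * (q * star p) := by
      have : p * star z + z * star q = -(q * star p) := by linear_combination e11
      rw [this, star_neg, neg_mul_neg]
    simp only [star_add, star_mul', star_star] at hh
    linear_combination hh - (star z * z) * h11 - (star z * z) * h22 - 2 * hz + h22 * (star p * p) + h11
  have k2 : r * star z * (s * star z) + star r * z * (star s * z) = -3 := by
    have hh : star (r * star z + z * star s) * (r * star z + z * star s) = star (s * star r) * (s * star r) := by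
      have : r * star z + z * star s = -(s * star r) := by linear_combination e12
      rw [this, star_neg, neg_mul_neg]
    simp only [star_add, star_mul', star_star] at hh
    linear_combination hh - (star z * z) * h12 - (star z * z) * h21 - 2 * hz + h21 * (star r * r) + h12
  have k3 : r * s = -(p * q) := by
    linear_combination (p * r) * e10 - (r * s) * h11 - (p * q) * h12
  have k3' : star r * star s = -(star p * star q) := by
    have := congrArg star k3
    simpa only [star_neg, star_mul'] using this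
  have : (-3 : ℂ) = 3 := by
    linear_combination (-1 : ℂ) * k2 + (star z * star z) * k3 + (z * z) * k3' - k1
  norm_num at this

/-- A unimodular triple whose circulant is singular is geometric. -/
theorem geom_of_sum {b0 b1 b2 : ℂ} (h0 : star b0 * b0 = 1) (h1 : star b1 * b1 = 1)
    (h2 : star b2 * b2 = 1) (h : b0 + b1 + b2 = 0) :
    ∃ n : ZMod 3, b1 = chi n * b0 ∧ b2 = chi n * b1 := by
  have h3 := three_zero h0 h1 h2 h
  have hom := om_sq
  have h4 : (b1 - om * b0) * (b1 - om * om * b0) = 0 := by
    have e : b2 = -b0 - b1 := by linear_combination h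
    rw [e] at h3
    linear_combination (-1 : ℂ) * h3 + (b0 * b0 * om - b0 * b1 - b0 * b0) * hom
  rcases mul_eq_zero.1 h4 with h5 | h5
  · refine ⟨1, ?_, ?_⟩
    · rw [chi_one]; linear_combination h5
    · rw [chi_one]
      linear_combination h - (1 + om) * h5 - b0 * hom
  · refine ⟨2, ?_, ?_⟩
    · rw [chi_two]; linear_combination h5
    · rw [chi_two]
      linear_combination h - (1 + om * om) * h5 - (b0 * (om * om - om)) * hom - b0 * hom

/-- A unimodular triple with vanishing circulant determinant is geometric. -/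
theorem geom {b : ZMod 3 → ℂ} (hb : ∀ j, star (b j) * b j = 1) {n : ZMod 3}
    (h : ∑ j, b j * chi (j * n) = 0) : ∃ m : ZMod 3, ∀ j, b (j + 1) = chi m * b j := by
  have hc : ∀ j, star (b j * chi (j * n)) * (b j * chi (j * n)) = 1 := by
    intro j
    rw [star_mul']
    linear_combination (star (chi (j * n)) * chi (j * n)) * hb j + chi_star_mul (j * n)
  rw [sum_zmod3] at h
  obtain ⟨m, h1, h2⟩ := geom_of_sum (hc 0) (hc 1) (hc 2) h
  rw [zero_mul, chi_zero, mul_one, one_mul] at h1
  rw [one_mul, show (2 : ZMod 3) * n = n + n by ring, chi_add] at h2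
  have hn := chi_star_mul n
  have h3 : star (chi n) * chi (m) = chi (m - n) := by
    rw [← chi_neg, ← chi_add]; congr 1; ring
  have key0 : b 1 = chi (m - n) * b 0 := by
    rw [← h3]
    linear_combination star (chi n) * h1 - b 1 * hn
  have key1 : b 2 = chi (m - n) * b 1 := by
    rw [← h3]
    linear_combination (star (chi n) * star (chi n)) * h2
      - (b 2 * (star (chi n) * chi n + 1) - chi m * b 1 * star (chi n)) * hn
  have h4 : chi (m - n) * chi (m - n) * chi (m - n) = 1 := by
    rw [← chi_add, ← chi_add, show m - n + (m - n) + (m - n) = 3 * (m - n) by ring,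
      show (3 : ZMod 3) = 0 from rfl, zero_mul, chi_zero]
  refine ⟨m - n, fun j => ?_⟩
  rcases zmod3_cases j with rfl | rfl | rfl
  · rw [zero_add]; exact key0
  · rw [show (1 : ZMod 3) + 1 = 2 from rfl]; exact key1
  · rw [show (2 : ZMod 3) + 1 = 0 from rfl]
    linear_combination (-b 0) * h4 - (chi (m - n) * chi (m - n)) * key0 - chi (m - n) * key1

/-- Singular circulants have a vanishing Fourier coefficient. -/
theorem circ_zero {b c : ZMod 3 → ℂ} (hc : c 0 ≠ 0)
    (h0 : b 0 * c 0 + b 1 * c 1 + b 2 * c 2 = 0) (h1 : b 1 * c 0 + b 2 * c 1 + b 0 * c 2 = 0)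
    (h2 : b 2 * c 0 + b 0 * c 1 + b 1 * c 2 = 0) : ∃ n : ZMod 3, ∑ j, b j * chi (j * n) = 0 := by
  have hdet : (b 0 + b 1 + b 2) * ((b 0 + b 1 * om + b 2 * (om * om)) *
      (b 0 + b 1 * (om * om) + b 2 * om)) = 0 := by
    apply (mul_eq_zero.1 _).resolve_right hc
    have hom := om_sq
    have h3 := om_cube
    have e : (b 0 + b 1 + b 2) * ((b 0 + b 1 * om + b 2 * (om * om)) *
      (b 0 + b 1 * (om * om) + b 2 * om)) = b 0 ^ 3 + b 1 ^ 3 + b 2 ^ 3 - 3 * b 0 * b 1 * b 2 := by
      have e1 : (b 0 + b 1 * om + b 2 * (om * om)) * (b 0 + b 1 * (om * om) + b 2 * om)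
          = b 0 ^ 2 + b 1 ^ 2 + b 2 ^ 2 - b 0 * b 1 - b 1 * b 2 - b 2 * b 0 := by
        linear_combination (b 0 * b 1 + b 0 * b 2 + b 1 * b 2) * hom + (b 1 ^ 2 + b 2 ^ 2 ) * h3
          + (b 1 * b 2 * om) * h3
      rw [e1]; ring
    rw [e]
    linear_combination (b 0 * b 0 - b 1 * b 2) * h0 + (b 1 * b 1 - b 0 * b 2) * h1
      + (b 2 * b 2 - b 0 * b 1) * h2
  rcases mul_eq_zero.1 hdet with h | h
  · exact ⟨0, by rw [sum_zmod3]; simpa using h⟩
  · rcases mul_eq_zero.1 h with h | h
    · refine ⟨1, ?_⟩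
      rw [sum_zmod3, zero_mul, mul_one, mul_one, chi_zero, chi_one, chi_two]
      linear_combination h
    · refine ⟨2, ?_⟩
      rw [sum_zmod3, zero_mul, one_mul, show (2 : ZMod 3) * 2 = 1 from rfl, chi_zero, chi_one,
        chi_two]
      linear_combination h

/-- Pairings without common pair are impossible. -/
theorem core_none {F : ZMod 3 → ZMod 3 → ℂ}
    (h : ∀ k j, star (∑ u, ∑ v, F u v * chi (k * u + j * v)) *
      (∑ u, ∑ v, F u v * chi (k * u + j * v)) = 6)
    (h0 : ∀ u, F u 0 = 0) (ha : ∀ u, star (F u 1) * F u 1 = 1)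
    (hb : ∀ u, star (F u 2) * F u 2 = 1) : False := by
  have e01 := autocorr h (g := 0) (t := 1) (by decide)
  have e11 := autocorr h (g := 1) (t := 1) (by decide)
  have e21 := autocorr h (g := 2) (t := 1) (by decide)
  have e10 := autocorr h (g := 1) (t := 0) (by decide)
  have a1 : (1 : ZMod 3) + 1 = 2 := rfl
  have a2 : (2 : ZMod 3) + 1 = 0 := rfl
  have a3 : (1 : ZMod 3) + 2 = 0 := rfl
  have a4 : (2 : ZMod 3) + 2 = 1 := rfl
  simp only [sum_zmod3, zero_add, add_zero, a1, a2, a3, a4, h0, star_zero,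
    mul_zero, zero_mul] at e01 e11 e21 e10
  have hne1 : ∀ u, F u 1 ≠ 0 := fun u e => by
    have := ha u; rw [e, mul_zero] at this; exact zero_ne_one this
  have hne2 : ∀ u, F u 2 ≠ 0 := fun u e => by
    have := hb u; rw [e, mul_zero] at this; exact zero_ne_one this
  -- both triples are geometric
  obtain ⟨n, hn⟩ := circ_zero (b := fun u => F u 2) (c := fun u => star (F u 1))
    (star_ne_zero.2 (hne1 0)) e01 e11 (by linear_combination e21)
  obtain ⟨m, hm⟩ := geom hb hn
  have e01' := congrArg star e01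
  have e11' := congrArg star e11
  have e21' := congrArg star e21
  simp only [star_add, star_mul', star_star, star_zero] at e01' e11' e21'
  obtain ⟨n', hn'⟩ := circ_zero (b := fun u => F u 1) (c := fun u => star (F u 2))
    (star_ne_zero.2 (hne2 0)) (by linear_combination e01') (by linear_combination e21')
    (by linear_combination e11')
  obtain ⟨m', hm'⟩ := geom ha hn'
  have b1 := hm 0
  have b2 := hm 1
  have b3 := hm 2
  have c1 := hm' 0
  have c2 := hm' 1
  have c3 := hm' 2
  rw [zero_add] at b1 c1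
  rw [a1] at b2 c2
  rw [a2] at b3 c3
  have hsum : chi m + chi m' = 0 := by
    have h3 : (3 : ℂ) ≠ 0 := by norm_num
    apply (mul_eq_zero.1 (_ : 3 * (chi m + chi m') = 0)).resolve_left h3
    linear_combination e10 - star (F 0 2) * b1 - star (F 1 2) * b2 - star (F 2 2) * b3
      - star (F 0 1) * c1 - star (F 1 1) * c2 - star (F 2 1) * c3
      - chi m * hb 0 - chi m * hb 1 - chi m * hb 2 - chi m' * ha 0 - chi m' * ha 1 - chi m' * ha 2
  have h5 : chi (m - m') = -1 := by
    rw [sub_eq_add_neg, chi_add, chi_neg]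
    linear_combination star (chi m') * hsum - chi_star_mul m'
  have h6 : chi (m - m') * chi (m - m') * chi (m - m') = 1 := by
    rw [← chi_add, ← chi_add, show m - m' + (m - m') + (m - m') = 3 * (m - m') by ring,
      show (3 : ZMod 3) = 0 from rfl, zero_mul, chi_zero]
  rw [h5] at h6
  norm_num at h6

/-- Combinatorics of two pairings. -/
theorem oo_comb {L L' : Fin 6 → ZMod 3} (hL : ∀ k, (univ.filter fun x => L x = k).card = 2)
    (hL' : ∀ k, (univ.filter fun x => L' x = k).card = 2) (D : Fin 6 → ℂ)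
    (hD : ∀ x, star (D x) * D x = 1)
    (h : ∀ k j, star (∑ x, D x * chi (k * L x + j * L' x)) *
      (∑ x, D x * chi (k * L x + j * L' x)) = 6) :
    ∃ e c : ZMod 3, e ≠ 0 ∧ ∀ x, L' x = e * L x + c := by
  classical
  -- counting matrix
  obtain ⟨N, hN⟩ : ∃ N : ZMod 3 → ZMod 3 → ℕ, ∀ u v, N u v =
      (univ.filter fun x => L x = u ∧ L' x = v).card := ⟨_, fun _ _ => rfl⟩
  obtain ⟨F, hF⟩ : ∃ F : ZMod 3 → ZMod 3 → ℂ, ∀ u v, F u v =
      ∑ x ∈ univ.filter (fun x => L x = u ∧ L' x = v), D x := ⟨_, fun _ _ => rfl⟩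
  have hrow : ∀ u, N u 0 + N u 1 + N u 2 = 2 := by
    intro u
    rw [← sum_zmod3 (fun v => N u v)]
    refine Eq.trans ?_ (hL u)
    rw [card_eq_sum_card_fiberwise (f := L') (t := univ) (fun x _ => mem_univ _)]
    refine sum_congr rfl fun v _ => ?_
    rw [hN, filter_filter]
  have hcol : ∀ v, N 0 v + N 1 v + N 2 v = 2 := by
    intro v
    rw [← sum_zmod3 (fun u => N u v)]
    refine Eq.trans ?_ (hL' v)
    rw [card_eq_sum_card_fiberwise (f := L) (t := univ) (fun x _ => mem_univ _)]
    refine sum_congr rfl fun u _ => ?_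
    rw [hN, filter_filter]
    congr 1
    ext x
    simp only [mem_filter, mem_univ, true_and]
    exact and_comm
  have hF0 : ∀ {u v}, N u v = 0 → F u v = 0 := by
    intro u v h0
    rw [hN, card_eq_zero] at h0
    rw [hF, h0, sum_empty]
  have hF1 : ∀ {u v}, N u v = 1 → star (F u v) * F u v = 1 := by
    intro u v h1
    rw [hN, card_eq_one] at h1
    obtain ⟨a, ha⟩ := h1
    rw [hF, ha, sum_singleton]
    exact hD a
  have hN0 : ∀ {u v}, N u v = 0 → ∀ x, ¬ (L x = u ∧ L' x = v) := by
    intro u v h0 x hx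
    rw [hN, card_eq_zero] at h0
    have : x ∈ univ.filter (fun x => L x = u ∧ L' x = v) := by simp [hx]
    rw [h0] at this
    exact absurd this (notMem_empty x)
  have hFsum : ∀ k j, ∑ u, ∑ v, F u v * chi (k * u + j * v)
      = ∑ x, D x * chi (k * L x + j * L' x) := by
    intro k j
    have h1 : ∀ u v, F u v * chi (k * u + j * v) =
        ∑ x, (if L x = u ∧ L' x = v then D x * chi (k * L x + j * L' x) else 0) := by
      intro u v
      rw [hF, sum_mul, sum_filter]
      refine sum_congr rfl fun x _ => ?_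
      by_cases hx : L x = u ∧ L' x = v
      · rw [if_pos hx, if_pos hx, hx.1, hx.2]
      · rw [if_neg hx, if_neg hx]
    simp only [h1]
    calc _ = ∑ u, ∑ x, ∑ v, (if L x = u ∧ L' x = v then D x * chi (k * L x + j * L' x) else 0) :=
          sum_congr rfl fun u _ => sum_comm
      _ = ∑ x, ∑ u, ∑ v, (if L x = u ∧ L' x = v then D x * chi (k * L x + j * L' x) else 0) :=
          sum_comm
      _ = _ := by
          refine sum_congr rfl fun x _ => ?_
          have : ∀ u v, (if L x = u ∧ L' x = v then D x * chi (k * L x + j * L' x) else 0)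
              = if L x = u then (if L' x = v then D x * chi (k * L x + j * L' x) else 0) else 0 := by
            intro u v
            by_cases h1 : L x = u <;> by_cases h2 : L' x = v <;> simp [h1, h2]
          simp only [this]
          rw [sum_eq_single (L x)]
          · rw [sum_eq_single (L' x)]
            · simp
            · intro b _ hb; simp [Ne.symm hb]
            · intro hx; exact absurd (mem_univ _) hx
          · intro b _ hb
            simp [Ne.symm hb]
          · intro hx; exact absurd (mem_univ _) hx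
  have hcore : ∀ k j, star (∑ u, ∑ v, F u v * chi (k * u + j * v)) *
      (∑ u, ∑ v, F u v * chi (k * u + j * v)) = 6 := by
    intro k j; rw [hFsum]; exact h k j
  by_cases htwo : ∃ u0 v0, N u0 v0 = 2
  · obtain ⟨u0, v0, h2⟩ := htwo
    have hrow' : ∀ u, N u v0 + N u (v0 + 1) + N u (v0 + 2) = 2 := by
      intro u
      have := hrow u
      rcases zmod3_cases v0 with rfl | rfl | rfl
      · exact this
      · rw [show (1 : ZMod 3) + 1 = 2 from rfl, show (1 : ZMod 3) + 2 = 0 from rfl]; omega
      · rw [show (2 : ZMod 3) + 1 = 0 from rfl, show (2 : ZMod 3) + 2 = 1 from rfl]; omega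
    have hcol' : ∀ v, N u0 v + N (u0 + 1) v + N (u0 + 2) v = 2 := by
      intro v
      have := hcol v
      rcases zmod3_cases u0 with rfl | rfl | rfl
      · exact this
      · rw [show (1 : ZMod 3) + 1 = 2 from rfl, show (1 : ZMod 3) + 2 = 0 from rfl]; omega
      · rw [show (2 : ZMod 3) + 1 = 0 from rfl, show (2 : ZMod 3) + 2 = 1 from rfl]; omega
    have r0 := hrow' u0
    have r1 := hrow' (u0 + 1)
    have r2 := hrow' (u0 + 2)
    have c0 := hcol' v0
    have c1 := hcol' (v0 + 1)
    have c2 := hcol' (v0 + 2)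
    have hcase : N (u0 + 1) (v0 + 1) = 0 ∨ N (u0 + 1) (v0 + 1) = 1 ∨ N (u0 + 1) (v0 + 1) = 2 := by
      omega
    have hu : ∀ x, L x = u0 ∨ L x = u0 + 1 ∨ L x = u0 + 2 := fun x => zmod3_rel _ _
    have hv : ∀ x, L' x = v0 ∨ L' x = v0 + 1 ∨ L' x = v0 + 2 := fun x => zmod3_rel _ _
    have z01 : N u0 (v0 + 1) = 0 := by omega
    have z02 : N u0 (v0 + 2) = 0 := by omega
    have z10 : N (u0 + 1) v0 = 0 := by omega
    have z20 : N (u0 + 2) v0 = 0 := by omega
    rcases hcase with hc | hc | hc
    · -- L' - v0 = -(L - u0)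
      have z22 : N (u0 + 2) (v0 + 2) = 0 := by omega
      refine ⟨2, v0 + u0, by decide, fun x => ?_⟩
      rcases hu x with h1 | h1 | h1 <;> rcases hv x with h3 | h3 | h3
      · rw [h1, h3]; exact (by decide : ∀ u v : ZMod 3, v = 2 * u + (v + u)) u0 v0
      · exact absurd ⟨h1, h3⟩ (hN0 z01 x)
      · exact absurd ⟨h1, h3⟩ (hN0 z02 x)
      · exact absurd ⟨h1, h3⟩ (hN0 z10 x)
      · exact absurd ⟨h1, h3⟩ (hN0 hc x)
      · rw [h1, h3]; exact (by decide : ∀ u v : ZMod 3, v + 2 = 2 * (u + 1) + (v + u)) u0 v0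
      · exact absurd ⟨h1, h3⟩ (hN0 z20 x)
      · rw [h1, h3]; exact (by decide : ∀ u v : ZMod 3, v + 1 = 2 * (u + 2) + (v + u)) u0 v0
      · exact absurd ⟨h1, h3⟩ (hN0 z22 x)
    · exfalso
      have n12 : N (u0 + 1) (v0 + 2) = 1 := by omega
      have n21 : N (u0 + 2) (v0 + 1) = 1 := by omega
      have n22 : N (u0 + 2) (v0 + 2) = 1 := by omega
      refine core_one (F := fun u v => F (u0 + u) (v0 + v)) ?_ ?_ ?_ ?_ ?_ (hF1 hc) (hF1 n12)
        (hF1 n21) (hF1 n22)
      · intro k j
        have e : ∑ u, ∑ v, F (u0 + u) (v0 + v) * chi (k * u + j * v)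
            = star (chi (k * u0 + j * v0)) * ∑ u, ∑ v, F u v * chi (k * u + j * v) := by
          rw [← sum_shift (fun u => ∑ v, F u v * chi (k * u + j * v)) u0, mul_sum]
          refine sum_congr rfl fun u _ => ?_
          rw [← sum_shift (fun v => F (u0 + u) v * chi (k * (u0 + u) + j * v)) v0, mul_sum]
          refine sum_congr rfl fun v _ => ?_
          have e2 : chi (k * (u0 + u) + j * (v0 + v)) =
              chi (k * u0 + j * v0) * chi (k * u + j * v) := by
            rw [← chi_add]; congr 1; ring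
          rw [e2]
          linear_combination (-F (u0 + u) (v0 + v) * chi (k * u + j * v)) *
            chi_star_mul (k * u0 + j * v0)
        rw [e, star_mul', star_star]
        linear_combination (star (∑ u, ∑ v, F u v * chi (k * u + j * v)) *
          (∑ u, ∑ v, F u v * chi (k * u + j * v))) * chi_star_mul (k * u0 + j * v0) + hcore k j
      · simp only [add_zero]; exact hF0 z01
      · simp only [add_zero]; exact hF0 z02
      · simp only [add_zero]; exact hF0 z10
      · simp only [add_zero]; exact hF0 z20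
    · have z12 : N (u0 + 1) (v0 + 2) = 0 := by omega
      have z21 : N (u0 + 2) (v0 + 1) = 0 := by omega
      refine ⟨1, v0 - u0, by decide, fun x => ?_⟩
      rcases hu x with h1 | h1 | h1 <;> rcases hv x with h3 | h3 | h3
      · rw [h1, h3]; ring
      · exact absurd ⟨h1, h3⟩ (hN0 z01 x)
      · exact absurd ⟨h1, h3⟩ (hN0 z02 x)
      · exact absurd ⟨h1, h3⟩ (hN0 z10 x)
      · rw [h1, h3]; ring
      · exact absurd ⟨h1, h3⟩ (hN0 z12 x)
      · exact absurd ⟨h1, h3⟩ (hN0 z20 x)
      · exact absurd ⟨h1, h3⟩ (hN0 z21 x)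
      · rw [h1, h3]; ring
  · exfalso
    push Not at htwo
    have hne : ∀ u v, N u v = 0 ∨ N u v = 1 := by
      intro u v
      have h1 := hrow u
      have h2 := htwo u v
      rcases zmod3_cases v with rfl | rfl | rfl <;> omega
    obtain ⟨e, c, hec⟩ : ∃ e c : ZMod 3, ∀ u, N u (e * u + c) = 0 := by
      have r0 := hrow 0
      have r1 := hrow 1
      have r2 := hrow 2
      have c0 := hcol 0
      have c1 := hcol 1
      have c2 := hcol 2
      have n00 := hne 0 0
      have n01 := hne 0 1
      have n02 := hne 0 2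
      have n10 := hne 1 0
      have n11 := hne 1 1
      have n12 := hne 1 2
      have n20 := hne 2 0
      have n21 := hne 2 1
      have n22 := hne 2 2
      have t0 : N 0 0 = 0 ∨ N 0 1 = 0 ∨ N 0 2 = 0 := by omega
      have t1 : N 1 0 = 0 ∨ N 1 1 = 0 ∨ N 1 2 = 0 := by omega
      have key : ∀ e c : ZMod 3, N 0 (e * 0 + c) = 0 → N 1 (e * 1 + c) = 0 →
          N 2 (e * 2 + c) = 0 → ∃ e c : ZMod 3, ∀ u, N u (e * u + c) = 0 := by
        intro e c h0 h1 h2
        refine ⟨e, c, fun u => ?_⟩
        rcases zmod3_cases u with rfl | rfl | rfl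
        · exact h0
        · exact h1
        · exact h2
      rcases t0 with t0 | t0 | t0 <;> rcases t1 with t1 | t1 | t1
      · omega
      · exact key 1 0 t0 t1 (show N 2 2 = 0 by omega)
      · exact key 2 0 t0 t1 (show N 2 1 = 0 by omega)
      · exact key 2 1 t0 t1 (show N 2 2 = 0 by omega)
      · omega
      · exact key 1 1 t0 t1 (show N 2 0 = 0 by omega)
      · exact key 1 2 t0 t1 (show N 2 1 = 0 by omega)
      · exact key 2 2 t0 t1 (show N 2 0 = 0 by omega)
      · omega
    have hone : ∀ u, N u (e * u + c + 1) = 1 ∧ N u (e * u + c + 2) = 1 := by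
      intro u
      have h0 := hec u
      have h1 := hrow u
      have n0 := hne u 0
      have n1 := hne u 1
      have n2 := hne u 2
      generalize e * u + c = w at *
      rcases zmod3_cases w with rfl | rfl | rfl
      · rw [show (0 : ZMod 3) + 1 = 1 from rfl, show (0 : ZMod 3) + 2 = 2 from rfl]; omega
      · rw [show (1 : ZMod 3) + 1 = 2 from rfl, show (1 : ZMod 3) + 2 = 0 from rfl]; omega
      · rw [show (2 : ZMod 3) + 1 = 0 from rfl, show (2 : ZMod 3) + 2 = 1 from rfl]; omega
    refine core_none (F := fun u d => F u (e * u + c + d)) ?_ ?_ (fun u => hF1 (hone u).1)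
      (fun u => hF1 (hone u).2)
    · intro k j
      have e1 : ∑ u, ∑ d, F u (e * u + c + d) * chi (k * u + j * d)
          = star (chi (j * c)) * ∑ u, ∑ v, F u v * chi ((k - j * e) * u + j * v) := by
        rw [mul_sum]
        refine sum_congr rfl fun u _ => ?_
        rw [← sum_shift (fun v => F u v * chi ((k - j * e) * u + j * v)) (e * u + c), mul_sum]
        refine sum_congr rfl fun d _ => ?_
        have e2 : chi ((k - j * e) * u + j * (e * u + c + d)) =
            chi (j * c) * chi (k * u + j * d) := by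
          rw [← chi_add]; congr 1; ring
        rw [e2]
        linear_combination (-F u (e * u + c + d) * chi (k * u + j * d)) * chi_star_mul (j * c)
      rw [e1, star_mul', star_star]
      linear_combination (star (∑ u, ∑ v, F u v * chi ((k - j * e) * u + j * v)) *
        (∑ u, ∑ v, F u v * chi ((k - j * e) * u + j * v))) * chi_star_mul (j * c)
        + hcore (k - j * e) j
    · intro u
      simp only [add_zero]
      exact hF0 (hec u)

/-- (OO) Two arrows leaving the same basis use the same pairing. -/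
theorem oo {H G : M6} (hH : Had H) (hG : Had G) (hHG : Had (Hᴴ * G)) {L L' : Fin 6 → ZMod 3}
    (h : HArrow H L) (h' : HArrow G L') : ∃ e c : ZMod 3, e ≠ 0 ∧ ∀ x, L' x = e * L x + c := by
  refine oo_comb h.1 h'.1 (fun x => 6 * star (H x 0) * G x 0) (fun x => ?_) fun k j => ?_
  · have e1 := hH.mod x 0
    have e2 := hG.mod x 0
    rw [star_mul', star_mul', star_star, show star (6 : ℂ) = 6 from Complex.conj_ofNat 6]
    linear_combination (36 * star (G x 0) * G x 0) * e1 + (6 : ℂ) * e2
  · obtain ⟨y', z, hz, hy⟩ := h.pow hH (-k) 0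
    obtain ⟨w', z', hz', hw⟩ := h'.pow hG j 0
    have e : ∑ x, 6 * star (H x 0) * G x 0 * chi (k * L x + j * L' x)
        = 6 * star z * z' * (Hᴴ * G) y' w' := by
      rw [Matrix.mul_apply, mul_sum]
      refine sum_congr rfl fun x _ => ?_
      have e1 := congrArg star (hy x)
      rw [star_mul', star_mul', ← chi_neg, show -(-k * L x) = k * L x by ring] at e1
      rw [chi_add, conjTranspose_apply]
      linear_combination (6 * G x 0 * chi (j * L' x)) * e1 + (6 * star z * star (H x y')) * hw x
    rw [e, star_mul', star_mul', star_mul', star_star,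
      show star (6 : ℂ) = 6 from Complex.conj_ofNat 6]
    have e3 := hHG.mod y' w'
    linear_combination (36 * star z' * z' * (star ((Hᴴ * G) y' w') * (Hᴴ * G) y' w')) * hz
      + (36 * (star ((Hᴴ * G) y' w') * (Hᴴ * G) y' w')) * hz' + (36 : ℂ) * e3

end Vale.Agent.P355.H665
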