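import Vale.Agent.P355.H665.FIIB
import Vale.Agent.P355.Bdl.B1

/-! Four MUBs of `ℂ⁶` in which every triple contains two Fourier pairs do not exist. -/

namespace Vale.Agent.P355.H665

open Finset Matrix Vale.Agent.P355

/-- Conjugation of a diagonal matrix: `U = A diag(d) Aᴴ`. -/
noncomputable def conjD (A : M6) (d : Fin 6 → ℂ) : M6 := A * diagonal d * Aᴴ

theorem conjD_mul_apply (A C : M6) (d : Fin 6 → ℂ) (r x : Fin 6) :
    (conjD C d * A) r x = ∑ y, C r y * (d y * (Cᴴ * A) y x) := by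
  rw [conjD, Matrix.mul_assoc, Matrix.mul_assoc, Matrix.mul_apply]
  refine sum_congr rfl fun y _ => ?_
  rw [diagonal_mul]

theorem recover {A C : M6} (hC : Unitary6 C) (r x : Fin 6) :
    ∑ y, C r y * (Cᴴ * A) y x = A r x := by
  have hC' : C * Cᴴ = 1 := mul_eq_one_comm.1 hC
  rw [← Matrix.mul_apply, ← Matrix.mul_assoc, hC', Matrix.one_mul]

theorem conjD_unitary {A : M6} (hA : Unitary6 A) {d : Fin 6 → ℂ} (hd : ∀ x, star (d x) * d x = 1) :
    Unitary6 (conjD A d) := by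
  have h1 : diagonal (star d) * diagonal d = (1 : M6) := by
    rw [diagonal_mul_diagonal, ← diagonal_one]
    congr 1
    ext x
    exact hd x
  unfold Unitary6 conjD
  rw [conjTranspose_mul, conjTranspose_mul, conjTranspose_conjTranspose, diagonal_conjTranspose]
  have hA2 : A * Aᴴ = 1 := mul_eq_one_comm.1 hA
  have hA1 : Aᴴ * A = 1 := hA
  calc A * (diagonal (star d) * Aᴴ) * (A * diagonal d * Aᴴ)
      = A * (diagonal (star d) * (Aᴴ * A) * diagonal d) * Aᴴ := by
        simp only [Matrix.mul_assoc]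
    _ = 1 := by rw [hA1, Matrix.mul_one, h1, Matrix.mul_one, hA2]

/-- `A diag(χ∘L) Aᴴ` preserves `A`. -/
theorem preserves_self {A : M6} (hA : Unitary6 A) (d : Fin 6 → ℂ) : Preserves (conjD A d) A := by
  intro x
  refine ⟨x, d x, fun r => ?_⟩
  rw [conjD_mul_apply]
  have hA1 : Aᴴ * A = 1 := hA
  rw [hA1, sum_eq_single x]
  · rw [one_apply_eq]; ring
  · intro y _ hy
    rw [one_apply_ne hy]; ring
  · intro hx; exact absurd (mem_univ _) hx

theorem preserves_of_arrow {A C : M6} (hA : Unitary6 A) {L : Fin 6 → ZMod 3}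
    (h : HArrow (Aᴴ * C) L) : Preserves (conjD A (fun x => chi (L x))) C := by
  intro y
  obtain ⟨y', z, hz⟩ := h.2 y
  refine ⟨y', z, fun r => ?_⟩
  rw [conjD_mul_apply, ← recover (A := C) hA r y', mul_sum]
  refine sum_congr rfl fun x _ => ?_
  rw [hz x]; ring

theorem HArrow.affine {H : M6} (hH : Had H) {L L' : Fin 6 → ZMod 3} (h' : HArrow H L')
    (hL : ∀ k, (univ.filter fun x => L x = k).card = 2) {e c : ZMod 3} (he : e ≠ 0)
    (hLL : ∀ x, L' x = e * L x + c) : HArrow H L := by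
  refine ⟨hL, fun y => ?_⟩
  obtain ⟨y', z, -, hz⟩ := h'.pow hH e y
  refine ⟨y', chi (-(e * c)) * z, fun x => ?_⟩
  have h1 : chi (L x) = chi (-(e * c)) * chi (e * L' x) := by
    rw [← chi_add, hLL]; congr 1
    linear_combination (-L x) * sq_one he
  rw [h1, mul_assoc, hz x, ← mul_assoc]

/-- transition matrices of MUBs -/
theorem trans_had {n : ℕ} {B : Fin n → M6} (hB : IsMUBs B) {i j : Fin n} (h : i ≠ j) :
    Had ((B i)ᴴ * B j) := had_of (hB.1 i) (hB.1 j) (hB.2 i j h)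

theorem trans_mul {X Y Z : M6} (hY : Unitary6 Y) : (Xᴴ * Y) * (Yᴴ * Z) = Xᴴ * Z := by
  have hY' : Y * Yᴴ = 1 := mul_eq_one_comm.1 hY
  rw [Matrix.mul_assoc, ← Matrix.mul_assoc Y, hY', Matrix.one_mul]

theorem trans_conj {X Y : M6} : (Xᴴ * Y)ᴴ = Yᴴ * X := by
  rw [conjTranspose_mul, conjTranspose_conjTranspose]

/-- Out-degree three is impossible. -/
theorem out_three {B : Fin 4 → M6} (hB : IsMUBs B) {i j k l : Fin 4} (hij : i ≠ j) (hik : i ≠ k)
    (hil : i ≠ l) (hjk : j ≠ k) (hjl : j ≠ l) (hkl : k ≠ l)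
    (h1 : ∃ L, Arrow (B i) (B j) L) (h2 : ∃ L, Arrow (B i) (B k) L)
    (h3 : ∃ L, Arrow (B i) (B l) L) : False := by
  obtain ⟨L, h1⟩ := h1
  have key : ∀ k, i ≠ k → j ≠ k → (∃ L, Arrow (B i) (B k) L) → HArrow ((B i)ᴴ * B k) L := by
    rintro k hik hjk ⟨L', h2⟩
    obtain ⟨e, c, he, hLL⟩ := oo (trans_had hB hij) (trans_had hB hik) (by
      rw [trans_conj, trans_mul (hB.1 i)]; exact trans_had hB hjk) h1 h2
    exact HArrow.affine (trans_had hB hik) h2 h1.1 he hLL
  have h2' := key k hik hjk h2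
  have h3' := key l hil hjl h3
  have hsym : IsSymmetry B (conjD (B i) (fun x => chi (L x))) := by
    refine ⟨conjD_unitary (hB.1 i) (fun x => chi_star_mul _), fun m => ?_⟩
    have hm : m = i ∨ m = j ∨ m = k ∨ m = l := by
      clear h1 h2 h3 key h2' h3' hB
      omega
    rcases hm with rfl | rfl | rfl | rfl
    · exact preserves_self (hB.1 _) _
    · exact preserves_of_arrow (hB.1 i) h1
    · exact preserves_of_arrow (hB.1 i) h2'
    · exact preserves_of_arrow (hB.1 i) h3'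
  obtain ⟨c, hc⟩ := matrix_scalar (le_refl 4) hB hsym
  have hconst : ∀ x, chi (1 * L x) = c := by
    intro x
    have hA1 : (B i)ᴴ * B i = 1 := hB.1 i
    have e1 : (B i)ᴴ * conjD (B i) (fun x => chi (L x)) * B i = diagonal (fun x => chi (L x)) := by
      unfold conjD
      rw [Matrix.mul_assoc, Matrix.mul_assoc, hA1, Matrix.mul_one, ← Matrix.mul_assoc, hA1,
        Matrix.one_mul]
    rw [hc, Matrix.mul_smul, Matrix.mul_one, Matrix.smul_mul, hA1] at e1
    have := congrFun (congrFun e1 x) x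
    rw [diagonal_apply_eq, Matrix.smul_apply, one_apply_eq, smul_eq_mul, mul_one] at this
    rw [one_mul]; exact this.symm
  exact absurd (HArrow.nonconst h1 hconst) (by decide)

/-- (IO) for bases. -/
theorem arrow_io {X Y Z : M6} (hX : Unitary6 X) (hY : Unitary6 Y) (hZ : Unitary6 Z)
    (hXY : Unbiased X Y) (hYZ : Unbiased Y Z) (hXZ : Unbiased X Z)
    (h1 : ∃ L, Arrow X Y L) (h2 : ∃ L, Arrow Y Z L) : ∃ L, Arrow Y X L := by
  obtain ⟨L, h1⟩ := h1
  obtain ⟨M, h2⟩ := h2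
  have := io (had_of hX hY hXY) (had_of hY hZ hYZ) (by
    rw [trans_mul hY]; exact had_of hX hZ hXZ) h1 h2
  rw [trans_conj] at this
  exact ⟨M, this⟩

/-- (II) for bases. -/
theorem arrow_ii {X Y Z : M6} (hX : Unitary6 X) (hY : Unitary6 Y) (hZ : Unitary6 Z)
    (hXY : Unbiased X Y) (hZY : Unbiased Z Y) (hXZ : Unbiased X Z) {L L' : Fin 6 → ZMod 3}
    (h1 : Arrow X Y L) (h2 : Arrow Z Y L') :
    (∃ σ : Fin 6 → ℂ, (∀ y, σ y = 1 ∨ σ y = -1) ∧ ∑ y, σ y = 0 ∧ SwapP (Xᴴ * Y) σ L ∧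
      SwapP (Zᴴ * Y) σ L') ∧
    (((∃ K, Arrow Y X K) ∧ (∃ K, Arrow Y Z K)) ∨ ∃ K, Arrow X Z K) := by
  have := ii (had_of hX hY hXY) (had_of hZ hY hZY) (by
    rw [trans_conj, trans_mul hY]; exact had_of hX hZ hXZ) h1 h2
  refine ⟨this.1, ?_⟩
  rcases this.2 with ⟨K, h3, h4⟩ | h3
  · rw [trans_conj] at h3 h4
    exact Or.inl ⟨⟨K, h3⟩, ⟨K, h4⟩⟩
  · rw [trans_conj, trans_mul hY] at h3
    exact Or.inr ⟨L, h3⟩

/-- A sign matrix in the `Y`-frame swapping the pairs of `X`. -/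
theorem swap_col {X Y : M6} (hY : Unitary6 Y) {σ : Fin 6 → ℂ}
    (hσ : ∀ y, σ y = 1 ∨ σ y = -1) {L : Fin 6 → ZMod 3} (h : SwapP (Xᴴ * Y) σ L) {x x' : Fin 6}
    (hne : x ≠ x') (hL : L x = L x') : ∃ z : ℂ, ∀ r, (conjD Y σ * X) r x = z * X r x' := by
  obtain ⟨z, hz⟩ := h x x' hne hL
  refine ⟨star z, fun r => ?_⟩
  rw [conjD_mul_apply, ← recover (A := X) hY r x', mul_sum]
  refine sum_congr rfl fun y _ => ?_
  have e1 : ∀ x, (Yᴴ * X) y x = star ((Xᴴ * Y) x y) := by
    intro x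
    rw [← trans_conj, conjTranspose_apply]
  have e2 : star (σ y) = σ y := by
    rcases hσ y with h | h <;> rw [h] <;> simp
  have e3 := congrArg star (hz y)
  rw [star_mul', star_mul', e2] at e3
  rw [e1, e1, e3]; ring

/-- A matrix diagonal in two unbiased frames is scalar. -/
theorem scalar_of_two {X Z U : M6} (hX : Unitary6 X) (hZ : Unitary6 Z) (hXZ : Unbiased X Z)
    (h1 : ∀ x, ∃ z : ℂ, ∀ r, (U * X) r x = z * X r x)
    (h2 : ∀ x, ∃ z : ℂ, ∀ r, (U * Z) r x = z * Z r x) : ∃ c : ℂ, U = c • 1 := by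
  choose l hl using h1
  choose m hm using h2
  have hX' : X * Xᴴ = 1 := mul_eq_one_comm.1 hX
  have hX1 : Xᴴ * X = 1 := hX
  have eX : U * X = X * diagonal l := by
    ext r x
    rw [hl, mul_diagonal, mul_comm]
  have eZ : U * Z = Z * diagonal m := by
    ext r x
    rw [hm, mul_diagonal, mul_comm]
  have eU : U = X * diagonal l * Xᴴ := by
    rw [← eX, Matrix.mul_assoc, hX', Matrix.mul_one]
  have hH := had_of hX hZ hXZ
  have e1 : diagonal l * (Xᴴ * Z) = (Xᴴ * Z) * diagonal m := by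
    calc diagonal l * (Xᴴ * Z) = (Xᴴ * X) * (diagonal l * (Xᴴ * Z)) := by rw [hX1, Matrix.one_mul]
      _ = Xᴴ * ((X * diagonal l * Xᴴ) * Z) := by simp only [Matrix.mul_assoc]
      _ = Xᴴ * (Z * diagonal m) := by rw [← eU, eZ]
      _ = _ := by rw [Matrix.mul_assoc]
  have e2 : ∀ x y, l x = m y := by
    intro x y
    have := congrFun (congrFun e1 x) y
    rw [diagonal_mul, mul_diagonal, mul_comm] at this
    exact mul_left_cancel₀ (hH.ne x y) this
  refine ⟨m 0, ?_⟩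
  have hl' : diagonal l = m 0 • (1 : M6) := by
    ext x y
    by_cases hxy : x = y
    · subst hxy
      rw [diagonal_apply_eq, Matrix.smul_apply, one_apply_eq, e2 x 0]; simp
    · rw [diagonal_apply_ne _ hxy, Matrix.smul_apply, one_apply_ne hxy]; simp
  rw [eU, hl', Matrix.mul_smul, Matrix.mul_one, Matrix.smul_mul, hX']

theorem trace_two {Y V : M6} (hY : Unitary6 Y) (hV : Unitary6 V) (hYV : Unbiased Y V)
    {σ τ : Fin 6 → ℂ} (hσ : ∑ y, σ y = 0) : (conjD Y σ * conjD V τ).trace = 0 := by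
  have hH := had_of hY hV hYV
  have e : (conjD Y σ * conjD V τ).trace =
      (diagonal σ * (Yᴴ * V) * (diagonal τ * (Vᴴ * Y))).trace := by
    unfold conjD
    rw [show Y * diagonal σ * Yᴴ * (V * diagonal τ * Vᴴ) =
      Y * (diagonal σ * (Yᴴ * V) * (diagonal τ * Vᴴ)) by simp only [Matrix.mul_assoc],
      trace_mul_comm]
    congr 1
    simp only [Matrix.mul_assoc]
  rw [e, trace]
  have e2 : ∀ y, (diagonal σ * (Yᴴ * V) * (diagonal τ * (Vᴴ * Y))).diag y =
      (∑ v, τ v * (1 / 6)) * σ y := by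
    intro y
    rw [diag_apply, Matrix.mul_apply, sum_mul]
    refine sum_congr rfl fun v _ => ?_
    rw [diagonal_mul, diagonal_mul, ← trans_conj (X := Y) (Y := V), conjTranspose_apply]
    linear_combination (σ y * τ v) * hH.mod y v
  simp only [e2]
  rw [← mul_sum, hσ, mul_zero]

/-- The bidirectional four-cycle is impossible. -/
theorem no_cycle {A B C D : M6} (hA : Unitary6 A) (hB : Unitary6 B) (hC : Unitary6 C)
    (hD : Unitary6 D) (hAB : Unbiased A B) (hAC : Unbiased A C) (hAD : Unbiased A D)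
    (hBC : Unbiased B C) (hBD : Unbiased B D) (hCD : Unbiased C D)
    (h1 : ∃ L, Arrow A C L) (h2 : ∃ L, Arrow A D L) (h3 : ∃ L, Arrow B C L)
    (h4 : ∃ L, Arrow B D L) : False := by
  obtain ⟨L1, h1⟩ := h1
  obtain ⟨L2, h2⟩ := h2
  obtain ⟨L3, h3⟩ := h3
  obtain ⟨L4, h4⟩ := h4
  obtain ⟨⟨σ, hσ, hσ0, s1, s3⟩, -⟩ := arrow_ii hA hC hB hAC hBC hAB h1 h3
  obtain ⟨⟨τ, hτ, hτ0, s2, s4⟩, -⟩ := arrow_ii hA hD hB hAD hBD hAB h2 h4
  obtain ⟨e, c, he, hLA⟩ := oo (had_of hA hC hAC) (had_of hA hD hAD) (by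
    rw [trans_conj, trans_mul hA]; exact had_of hC hD hCD) h1 h2
  obtain ⟨e', c', he', hLB⟩ := oo (had_of hB hC hBC) (had_of hB hD hBD) (by
    rw [trans_conj, trans_mul hB]; exact had_of hC hD hCD) h3 h4
  -- the product of the two sign matrices is diagonal in `A` and in `B`
  have key : ∀ {X : M6} {L L' : Fin 6 → ZMod 3}, SwapP (Xᴴ * C) σ L → SwapP (Xᴴ * D) τ L' →
      (∀ k, (univ.filter fun x => L x = k).card = 2) → (∀ x x', L x = L x' → L' x = L' x') →
      ∀ x, ∃ z : ℂ, ∀ r, (conjD C σ * conjD D τ * X) r x = z * X r x := by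
    intro X L L' t1 t2 hfib hLL x
    have hcard : 1 < (univ.filter fun x' => L x' = L x).card := by rw [hfib]; norm_num
    obtain ⟨x', hx', hne⟩ := Finset.exists_mem_ne hcard x
    rw [mem_filter] at hx'
    obtain ⟨z1, hz1⟩ := swap_col hD hτ t2 (Ne.symm hne) (hLL _ _ hx'.2.symm)
    obtain ⟨z2, hz2⟩ := swap_col hC hσ t1 hne hx'.2
    refine ⟨z1 * z2, fun r => ?_⟩
    rw [Matrix.mul_assoc, Matrix.mul_apply]
    have : ∀ y, conjD C σ r y * (conjD D τ * X) y x = z1 * (conjD C σ r y * X y x') := by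
      intro y; rw [hz1]; ring
    simp only [this]
    rw [← mul_sum, ← Matrix.mul_apply, hz2]; ring
  have kA := key s1 s2 h1.1 (fun x x' h => by rw [hLA, hLA, h])
  have kB := key s3 s4 h3.1 (fun x x' h => by rw [hLB, hLB, h])
  obtain ⟨z, hz⟩ := scalar_of_two hA hB hAB kA kB
  have htr := trace_two (τ := τ) hC hD hCD hσ0
  rw [hz, trace_smul, trace_one, smul_eq_mul] at htr
  have hz0 : z = 0 := by
    rcases mul_eq_zero.1 htr with h | h
    · exact h
    · simp at h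
  rw [hz0, zero_smul] at hz
  have hu1 : ∀ {Y : M6} {σ : Fin 6 → ℂ}, Unitary6 Y → (∀ y, σ y = 1 ∨ σ y = -1) →
      Unitary6 (conjD Y σ) := by
    intro Y σ hY hσ
    refine conjD_unitary hY fun y => ?_
    rcases hσ y with h | h <;> rw [h] <;> simp
  have u1 := hu1 hC hσ
  have u2 := hu1 hD hτ
  have u1' : (conjD C σ)ᴴ * conjD C σ = 1 := u1
  have u2' : (conjD D τ)ᴴ * conjD D τ = 1 := u2
  have h0 : conjD D τ = 0 := by
    calc conjD D τ = ((conjD C σ)ᴴ * conjD C σ) * conjD D τ := by rw [u1', Matrix.one_mul]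
      _ = 0 := by rw [Matrix.mul_assoc, hz, Matrix.mul_zero]
  rw [h0, Matrix.mul_zero] at u2'
  exact zero_ne_one u2'

/-- `{X, Y}` is a Fourier pair. -/
def Fou (X Y : M6) : Prop := (∃ L, Arrow X Y L) ∨ (∃ L, Arrow Y X L)

theorem fin4_others : ∀ i j : Fin 4, i ≠ j → ∃ k l : Fin 4, i ≠ k ∧ i ≠ l ∧ j ≠ k ∧ j ≠ l ∧ k ≠ l := by
  decide

/-- **Theorem F.** Four mutually unbiased bases of `ℂ⁶` such that every three of them contain at
least two Fourier pairs do not exist. -/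
theorem theoremF (B : Fin 4 → M6) (hB : IsMUBs B)
    (hT : ∀ i j k : Fin 4, i ≠ j → i ≠ k → j ≠ k →
      (Fou (B i) (B j) ∧ Fou (B i) (B k)) ∨ (Fou (B i) (B j) ∧ Fou (B j) (B k)) ∨
      (Fou (B i) (B k) ∧ Fou (B j) (B k))) : False := by
  obtain ⟨R, hR⟩ : ∃ R : Fin 4 → Fin 4 → Prop, ∀ i j, R i j ↔ ∃ L, Arrow (B i) (B j) L :=
    ⟨fun i j => ∃ L, Arrow (B i) (B j) L, fun _ _ => Iff.rfl⟩
  have hF : ∀ i j, Fou (B i) (B j) ↔ R i j ∨ R j i := fun i j => by rw [hR, hR]; rfl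
  simp only [hF] at hT
  have hio : ∀ i j k, i ≠ j → i ≠ k → j ≠ k → R i j → R j k → R j i := by
    intro i j k hij hik hjk h1 h2
    rw [hR] at *
    exact arrow_io (hB.1 i) (hB.1 j) (hB.1 k) (hB.2 i j hij) (hB.2 j k hjk) (hB.2 i k hik) h1 h2
  have hii : ∀ i j k, i ≠ j → i ≠ k → j ≠ k → R i j → R k j → (R j i ∧ R j k) ∨ R i k := by
    intro i j k hij hik hjk h1 h2
    rw [hR] at h1 h2
    rw [hR, hR, hR]
    obtain ⟨L, h1⟩ := h1
    obtain ⟨L', h2⟩ := h2
    exact (arrow_ii (hB.1 i) (hB.1 j) (hB.1 k) (hB.2 i j hij) (hB.2 k j hjk.symm)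
      (hB.2 i k hik) h1 h2).2
  have hout : ∀ i j k l, i ≠ j → i ≠ k → i ≠ l → j ≠ k → j ≠ l → k ≠ l →
      R i j → R i k → R i l → False := by
    intro i j k l hij hik hil hjk hjl hkl h1 h2 h3
    rw [hR] at *
    exact out_three hB hij hik hil hjk hjl hkl h1 h2 h3
  have hcyc : ∀ a b c d, a ≠ b → a ≠ c → a ≠ d → b ≠ c → b ≠ d → c ≠ d →
      R a c → R a d → R b c → R b d → False := by
    intro a b c d hab hac had hbc hbd hcd h1 h2 h3 h4
    rw [hR] at *
    exact no_cycle (hB.1 a) (hB.1 b) (hB.1 c) (hB.1 d) (hB.2 a b hab) (hB.2 a c hac)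
      (hB.2 a d had) (hB.2 b c hbc) (hB.2 b d hbd) (hB.2 c d hcd) h1 h2 h3 h4
  -- a one-directional arrow would make its target a sink
  have hsink : ∀ i j k l, i ≠ j → i ≠ k → i ≠ l → j ≠ k → j ≠ l → k ≠ l → R i j → ¬ R j i →
      (R j k ∨ R k j) → False := by
    intro i j k l hij hik hil hjk hjl hkl h1 h2 h3
    have njk : ¬ R j k := fun h => h2 (hio i j k hij hik hjk h1 h)
    have njl : ¬ R j l := fun h => h2 (hio i j l hij hil hjl h1 h)
    have hkj : R k j := h3.resolve_left njk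
    have hRik : R i k := by
      rcases hii i j k hij hik hjk h1 hkj with h | h
      · exact absurd h.1 h2
      · exact h
    have nil : ¬ R i l := fun h => hout i j k l hij hik hil hjk hjl hkl h1 hRik h
    have nlj : ¬ R l j := fun h => by
      rcases hii i j l hij hil hjl h1 h with h' | h'
      · exact h2 h'.1
      · exact nil h'
    rcases hT j i l hij.symm hjl hil with h | h | h
    · rcases h.2 with h' | h'
      exacts [njl h', nlj h']
    · rcases h.2 with h' | h'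
      · exact nil h'
      · exact nil (hio l i j hil.symm hjl.symm hij h' h1)
    · rcases h.1 with h' | h'
      exacts [njl h', nlj h']
  have hbi : ∀ i j, i ≠ j → R i j → R j i := by
    intro i j hij h1
    by_contra h2
    obtain ⟨k, l, hik, hil, hjk, hjl, hkl⟩ := fin4_others i j hij
    rcases hT j k l hjk hjl hkl with h | h | h
    · exact hsink i j k l hij hik hil hjk hjl hkl h1 h2 h.1
    · exact hsink i j k l hij hik hil hjk hjl hkl h1 h2 h.1
    · exact hsink i j l k hij hil hik hjl hjk hkl.symm h1 h2 h.1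
  have hbi' : ∀ i j, i ≠ j → (R i j ∨ R j i) → R i j := by
    intro i j hij h
    rcases h with h | h
    · exact h
    · exact hbi j i hij.symm h
  -- no vertex has a non-edge
  have hmiss : ∀ a b c d, a ≠ b → a ≠ c → a ≠ d → b ≠ c → b ≠ d → c ≠ d → R a b := by
    intro a b c d hab hac had hbc hbd hcd
    by_contra hn
    have hn' : ¬ (R a b ∨ R b a) := fun h => hn (hbi' a b hab h)
    have e1 : (R a c ∨ R c a) ∧ (R b c ∨ R c b) := by
      rcases hT a b c hab hac hbc with h | h | h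
      exacts [absurd h.1 hn', absurd h.1 hn', h]
    have e2 : (R a d ∨ R d a) ∧ (R b d ∨ R d b) := by
      rcases hT a b d hab had hbd with h | h | h
      exacts [absurd h.1 hn', absurd h.1 hn', h]
    exact hcyc a b c d hab hac had hbc hbd hcd (hbi' a c hac e1.1) (hbi' a d had e2.1)
      (hbi' b c hbc e1.2) (hbi' b d hbd e2.2)
  exact hout 0 1 2 3 (by decide) (by decide) (by decide) (by decide) (by decide) (by decide)
    (hmiss 0 1 2 3 (by decide) (by decide) (by decide) (by decide) (by decide) (by decide))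
    (hmiss 0 2 1 3 (by decide) (by decide) (by decide) (by decide) (by decide) (by decide))
    (hmiss 0 3 1 2 (by decide) (by decide) (by decide) (by decide) (by decide) (by decide))

end Vale.Agent.P355.H665
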