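import Vale.Agent.P355.MatDefs

/-! Three mutually unbiased bases of `ℂ⁶` (all entries are `12`-th roots of unity over `√6`). -/

namespace Vale.Agent.P355.H665

open Matrix Complex

/-- primitive 12th root of unity -/
noncomputable def z12 : ℂ := ⟨Real.sqrt 3 / 2, 1 / 2⟩

theorem s3_sq : Real.sqrt 3 * Real.sqrt 3 = 3 := Real.mul_self_sqrt (by norm_num)

theorem z12_sq : z12 ^ 2 = ⟨1 / 2, Real.sqrt 3 / 2⟩ := by
  rw [pow_two]
  apply Complex.ext
  · simp only [z12, Complex.mul_re]
    have := s3_sq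
    linarith
  · simp only [z12, Complex.mul_im]
    ring

theorem z12_four : z12 ^ 4 = z12 ^ 2 - 1 := by
  have h : z12 ^ 4 = z12 ^ 2 * z12 ^ 2 := by ring
  rw [h, z12_sq]
  apply Complex.ext
  · simp only [Complex.mul_re, Complex.sub_re, Complex.one_re]
    have := s3_sq
    linarith
  · simp only [Complex.mul_im, Complex.sub_im, Complex.one_im]
    ring

theorem z12_twelve : z12 ^ 12 = 1 := by
  have h : z12 ^ 12 = (z12 ^ 4) ^ 3 := by ring
  have h6 : z12 ^ 6 = z12 ^ 4 * z12 ^ 2 := by ring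
  rw [h]
  have := z12_four
  linear_combination (z12 ^ 8 + z12 ^ 4 * (z12^2 - 1) + (z12 ^ 2 - 1) ^ 2 + z12 ^ 2 - 2) * this

theorem star_z12 : star z12 * z12 = 1 := by
  apply Complex.ext
  · simp only [z12, Complex.mul_re, Complex.star_def, Complex.conj_re, Complex.conj_im,
      Complex.one_re]
    have := s3_sq
    linarith
  · simp only [z12, Complex.mul_im, Complex.star_def, Complex.conj_re, Complex.conj_im,
      Complex.one_im]
    ring

theorem star_z12' : star z12 = z12 ^ 11 := by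
  have h1 := star_z12
  have h2 := z12_twelve
  linear_combination z12 ^ 11 * h1 - star z12 * h2

/-- exponents modulo 12, vectors in `ℤ⁴` -/
def vz : ℕ → ℤ × ℤ × ℤ × ℤ
  | 0 => (1, 0, 0, 0)
  | n + 1 => let v := vz n; (-v.2.2.2, v.1, v.2.1 + v.2.2.2, v.2.2.1)

noncomputable def val (v : ℤ × ℤ × ℤ × ℤ) : ℂ :=
  v.1 + v.2.1 * z12 + v.2.2.1 * z12 ^ 2 + v.2.2.2 * z12 ^ 3

theorem val_vz (n : ℕ) : z12 ^ n = val (vz n) := by
  induction n with
  | zero => simp [vz, val]
  | succ n ih =>
    rw [pow_succ, ih]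
    simp only [vz, val]
    push_cast
    linear_combination ((vz n).2.2.2 : ℂ) * z12_four

theorem val_add (v w : ℤ × ℤ × ℤ × ℤ) : val (v + w) = val v + val w := by
  simp only [val, Prod.fst_add, Prod.snd_add]
  push_cast
  ring

theorem val_zero : val 0 = 0 := by simp [val]

theorem val_sum {ι : Type*} (s : Finset ι) (f : ι → ℤ × ℤ × ℤ × ℤ) :
    val (∑ i ∈ s, f i) = ∑ i ∈ s, val (f i) := by
  classical
  induction s using Finset.induction_on with
  | empty => simp [val_zero]
  | insert a s ha ih => rw [Finset.sum_insert ha, Finset.sum_insert ha, val_add, ih]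

/-- exponent of the Fourier matrix `F₂ ⊗ F₃` -/
def ex1 (k l : Fin 6) : ℕ := (6 * ((k.val / 3) * (l.val / 3)) + 4 * ((k.val % 3) * (l.val % 3))) % 12
/-- exponent of the third basis -/
def ex2 (k l : Fin 6) : ℕ := (3 * (k.val / 3) + 4 * ((k.val % 3) * (k.val % 3)) + ex1 k l) % 12

noncomputable def r6 : ℂ := ((Real.sqrt 6)⁻¹ : ℝ)

theorem r6_sq : r6 * r6 = 1 / 6 := by
  unfold r6
  rw [← Complex.ofReal_mul]
  have h : (Real.sqrt 6)⁻¹ * (Real.sqrt 6)⁻¹ = 1 / 6 := by
    rw [← mul_inv, Real.mul_self_sqrt (by norm_num)]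
    norm_num
  rw [h]
  norm_num

theorem star_r6 : star r6 = r6 := by
  unfold r6
  exact Complex.conj_ofReal _

noncomputable def mat (e : Fin 6 → Fin 6 → ℕ) : M6 := fun k l => r6 * z12 ^ e k l

theorem star_pow_z (n : ℕ) : star (z12 ^ n) = z12 ^ (11 * n) := by
  rw [star_pow, star_z12', ← pow_mul]

theorem ip_mat (e f : Fin 6 → Fin 6 → ℕ) (l m : Fin 6) :
    ((mat e).conjTranspose * mat f) l m = 1 / 6 * val (∑ k, vz (11 * e k l + f k m)) := by
  rw [val_sum, Finset.mul_sum, Matrix.mul_apply]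
  apply Finset.sum_congr rfl
  intro k _
  rw [← val_vz, pow_add, Matrix.conjTranspose_apply]
  unfold mat
  rw [star_mul', star_r6, star_pow_z]
  linear_combination (z12 ^ (11 * e k l) * z12 ^ f k m) * r6_sq

theorem unitary_mat (e : Fin 6 → Fin 6 → ℕ)
    (h : ∀ l m, ∑ k, vz (11 * e k l + e k m) = if l = m then (6, 0, 0, 0) else 0) :
    Unitary6 (mat e) := by
  unfold Unitary6
  ext l m
  rw [ip_mat, h, Matrix.one_apply]
  split_ifs
  · simp [val]
  · simp [val_zero]

theorem unitary1 : Unitary6 (mat ex1) := by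
  apply unitary_mat
  decide +kernel

theorem unitary2 : Unitary6 (mat ex2) := by
  apply unitary_mat
  decide +kernel

theorem unitary0 : Unitary6 (1 : M6) := by
  unfold Unitary6
  simp

theorem normSq_z (n : ℕ) : Complex.normSq (z12 ^ n) = 1 := by
  have h : Complex.normSq z12 = 1 := by
    have := star_z12
    have h2 : (Complex.normSq z12 : ℂ) = 1 := by
      rw [Complex.normSq_eq_conj_mul_self]
      exact this
    exact_mod_cast h2
  rw [map_pow, h, one_pow]

theorem normSq_r6 : Complex.normSq r6 = 1 / 6 := by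
  have h2 : (Complex.normSq r6 : ℂ) = ((1 / 6 : ℝ) : ℂ) := by
    rw [Complex.normSq_eq_conj_mul_self]
    have := r6_sq
    rw [show (starRingEnd ℂ) r6 = r6 from star_r6, this]
    norm_num
  exact_mod_cast h2

theorem unbiased_one (e : Fin 6 → Fin 6 → ℕ) : Unbiased 1 (mat e) := by
  intro k l
  rw [Matrix.conjTranspose_one, Matrix.one_mul]
  unfold mat
  rw [map_mul, normSq_r6, normSq_z, mul_one]

theorem unbiased_symmT {A C : M6} (h : Unbiased A C) : Unbiased C A := by
  intro k l
  have h1 : (C.conjTranspose * A) k l = star ((A.conjTranspose * C) l k) := by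
    rw [← Matrix.conjTranspose_apply, Matrix.conjTranspose_mul, Matrix.conjTranspose_conjTranspose]
  rw [h1]
  have := h l k
  rw [← this]
  exact Complex.normSq_conj _

theorem unbiased12 : Unbiased (mat ex1) (mat ex2) := by
  intro l m
  rw [ip_mat]
  have key : ∀ l m : Fin 6, ∑ k, ∑ k', vz (11 * (11 * ex1 k l + ex2 k m) + (11 * ex1 k' l + ex2 k' m))
      = (6, 0, 0, 0) := by decide +kernel
  have h2 : (Complex.normSq (1 / 6 * val (∑ k, vz (11 * ex1 k l + ex2 k m))) : ℂ)
      = ((1 / 6 : ℝ) : ℂ) := by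
    rw [Complex.normSq_eq_conj_mul_self]
    have h3 : val (∑ k, ∑ k', vz (11 * (11 * ex1 k l + ex2 k m) + (11 * ex1 k' l + ex2 k' m)))
        = star (val (∑ k, vz (11 * ex1 k l + ex2 k m))) * val (∑ k, vz (11 * ex1 k l + ex2 k m)) := by
      rw [val_sum, val_sum, star_sum, Finset.sum_mul]
      apply Finset.sum_congr rfl
      intro k _
      rw [val_sum, Finset.mul_sum]
      apply Finset.sum_congr rfl
      intro k' _
      rw [← val_vz, ← val_vz, ← val_vz, star_pow_z, ← pow_add]
    have h4 : val (6, 0, 0, 0) = 6 := by simp [val]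
    rw [key l m, h4] at h3
    rw [map_mul]
    have h5 : (starRingEnd ℂ) (1 / 6) = 1 / 6 := by
      rw [map_div₀, map_one]
      congr 1
      exact Complex.conj_ofNat 6
    have h6 : (starRingEnd ℂ) (val (∑ k, vz (11 * ex1 k l + ex2 k m))) =
      star (val (∑ k, vz (11 * ex1 k l + ex2 k m))) := rfl
    rw [h5, h6]
    push_cast
    linear_combination (-1 / 36 : ℂ) * h3
  exact_mod_cast h2

/-- three mutually unbiased bases of `ℂ⁶` -/
noncomputable def B3 : Fin 3 → M6 := ![1, mat ex1, mat ex2]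

theorem isMUBs_B3 : IsMUBs B3 := by
  refine ⟨?_, ?_⟩
  · intro i
    fin_cases i
    · exact unitary0
    · exact unitary1
    · exact unitary2
  · intro i j hij
    fin_cases i <;> fin_cases j
    · exact absurd rfl hij
    · exact unbiased_one ex1
    · exact unbiased_one ex2
    · exact unbiased_symmT (unbiased_one ex1)
    · exact absurd rfl hij
    · exact unbiased12
    · exact unbiased_symmT (unbiased_one ex2)
    · exact unbiased_symmT unbiased12
    · exact absurd rfl hij

theorem three_exist : ∃ B : Fin 3 → M6, IsMUBs B := ⟨B3, isMUBs_B3⟩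

/-- `N(6) = 3` from the upper bound. -/
theorem final_of (h : ∀ (n : ℕ) (B : Fin n → M6), IsMUBs B → n ≤ 3) :
    IsGreatest {n : ℕ | ∃ B : Fin n → M6, IsMUBs B} 3 :=
  ⟨three_exist, fun _ ⟨B, hB⟩ => h _ B hB⟩

end Vale.Agent.P355.H665
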